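import Vale.Agent.P092.H933.HM4

/-!
P092 (helper252), [DU-GAP]: uniform contraction by averages of elements of the block `SL_2(k)` for
unitary representations of `SL_N(k)`, `N ≥ 3`, `k` nonarchimedean of any characteristic, on the
complement of the fixed vectors.  Ping-pong on the cone `|x| ≤ |y|` in the dual of the root group
`k²`, written with projections onto the vectors fixed by balls of the root groups.
-/

set_option linter.all false

universe u

namespace Vale.Agent.P092.H252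

open Matrix Matrix.SpecialLinearGroup Filter Topology Vale.Agent.P092.H933

open scoped InnerProductSpace

section abs

variable {G : Type*} [Group G] [TopologicalSpace G] {𝓗 : Type*} [NormedAddCommGroup 𝓗]
  [InnerProductSpace ℂ 𝓗] {σ : G →* (𝓗 →L[ℂ] 𝓗)}

/-- the vectors fixed by all elements of a set -/
def fx (σ : G →* (𝓗 →L[ℂ] 𝓗)) (S : Set G) : Submodule ℂ 𝓗 where
  carrier := {ξ | ∀ g ∈ S, σ g ξ = ξ}
  add_mem' {a b} ha hb g hg := by rw [map_add, ha g hg, hb g hg]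
  zero_mem' g _ := map_zero _
  smul_mem' c a ha g hg := by rw [map_smul, ha g hg]

theorem mem_fx {S : Set G} {ξ : 𝓗} : ξ ∈ fx σ S ↔ ∀ g ∈ S, σ g ξ = ξ := Iff.rfl

theorem isClosed_fx (σ : G →* (𝓗 →L[ℂ] 𝓗)) (S : Set G) : IsClosed (fx σ S : Set 𝓗) := by
  have : (fx σ S : Set 𝓗) = ⋂ g ∈ S, {ξ | σ g ξ = ξ} := by
    ext ξ
    simp only [Set.mem_iInter]
    exact Iff.rfl
  rw [this]
  exact isClosed_biInter fun g _ => isClosed_eq (σ g).continuous continuous_id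

instance [CompleteSpace 𝓗] (σ : G →* (𝓗 →L[ℂ] 𝓗)) (S : Set G) : CompleteSpace (fx σ S) :=
  (isClosed_fx σ S).completeSpace_coe

theorem fx_mono {S T : Set G} (h : S ⊆ T) : fx σ T ≤ fx σ S := fun _ hξ g hg => hξ g (h hg)

variable [CompleteSpace 𝓗]

/-- the projection onto the fixed vectors -/
noncomputable def pr (σ : G →* (𝓗 →L[ℂ] 𝓗)) (S : Set G) : 𝓗 →L[ℂ] 𝓗 := (fx σ S).starProjection

theorem pr_mem (S : Set G) (ξ : 𝓗) : pr σ S ξ ∈ fx σ S := Submodule.starProjection_apply_mem _ _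

theorem inner_pr {S : Set G} {ξ η : 𝓗} (hη : η ∈ fx σ S) : ⟪pr σ S ξ, η⟫_ℂ = ⟪ξ, η⟫_ℂ := by
  have := Submodule.starProjection_inner_eq_zero (K := fx σ S) ξ η hη
  rw [inner_sub_left, sub_eq_zero] at this
  exact this.symm

theorem inner_pr' {S : Set G} {ξ η : 𝓗} (hη : η ∈ fx σ S) : ⟪η, pr σ S ξ⟫_ℂ = ⟪η, ξ⟫_ℂ := by
  rw [← inner_conj_symm, inner_pr hη, inner_conj_symm]

/-- characterisation of the projection -/
theorem pr_eq {S : Set G} {ξ ζ : 𝓗} (h1 : ζ ∈ fx σ S) (h2 : ∀ η ∈ fx σ S, ⟪ζ, η⟫_ℂ = ⟪ξ, η⟫_ℂ) :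
    pr σ S ξ = ζ := by
  have h3 : pr σ S ξ - ζ ∈ fx σ S := Submodule.sub_mem _ (pr_mem S ξ) h1
  have h4 : ⟪pr σ S ξ - ζ, pr σ S ξ - ζ⟫_ℂ = 0 := by
    rw [inner_sub_left, inner_pr h3, h2 _ h3, sub_self]
  exact sub_eq_zero.1 (inner_self_eq_zero.1 h4)

theorem pr_self {S : Set G} {ξ : 𝓗} (h : ξ ∈ fx σ S) : pr σ S ξ = ξ := pr_eq h fun _ _ => rfl

theorem norm_pr_le (S : Set G) (ξ : 𝓗) : ‖pr σ S ξ‖ ≤ ‖ξ‖ :=
  Submodule.norm_starProjection_apply_le _ _

theorem inner_pr_comm (S : Set G) (ξ η : 𝓗) : ⟪pr σ S ξ, η⟫_ℂ = ⟪ξ, pr σ S η⟫_ℂ := by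
  rw [← inner_pr' (pr_mem S ξ), inner_pr (pr_mem S η)]

theorem norm_sub_pr_le (S : Set G) (ξ : 𝓗) : ‖ξ - pr σ S ξ‖ ≤ ‖ξ‖ := by
  have h : ⟪pr σ S ξ, ξ - pr σ S ξ⟫_ℂ = 0 := by
    rw [inner_sub_right, inner_pr' (pr_mem S ξ), sub_self]
  have h2 := norm_add_sq_eq_norm_sq_add_norm_sq_of_inner_eq_zero (𝕜 := ℂ) _ _ h
  rw [add_sub_cancel] at h2
  nlinarith [norm_nonneg ξ, norm_nonneg (ξ - pr σ S ξ), norm_nonneg (pr σ S ξ),
    mul_self_nonneg (‖pr σ S ξ‖)]

/-- `g` commutes with the set `S` -/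
def Cm (g : G) (S : Set G) : Prop := ∀ s ∈ S, g * s = s * g

theorem Cm.inv {g : G} {S : Set G} (h : Cm g S) : Cm g⁻¹ S := fun s hs => by
  have := h s hs
  calc g⁻¹ * s = g⁻¹ * (s * g) * g⁻¹ := by group
    _ = g⁻¹ * (g * s) * g⁻¹ := by rw [this]
    _ = s * g⁻¹ := by group

theorem mulA (g h : G) (ξ : 𝓗) : σ g (σ h ξ) = σ (g * h) ξ := by
  rw [map_mul]; rfl

theorem Cm.mem {g : G} {S : Set G} (h : Cm g S) {ξ : 𝓗} (hξ : ξ ∈ fx σ S) : σ g ξ ∈ fx σ S := by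
  intro s hs
  rw [mulA, ← h s hs, ← mulA, hξ s hs]

theorem Cm.pr {g : G} {S : Set G} (h : Cm g S) (hσ : URep σ) (ξ : 𝓗) :
    σ g (pr σ S ξ) = pr σ S (σ g ξ) := by
  symm
  refine pr_eq (h.mem (pr_mem S ξ)) fun η hη => ?_
  have h1 : ∀ x y : 𝓗, ⟪σ g x, y⟫_ℂ = ⟪x, σ g⁻¹ y⟫_ℂ := by
    intro x y
    have := hσ.inner_map g x (σ g⁻¹ y)
    rw [mulA, mul_inv_cancel, map_one] at this
    exact this
  rw [h1, h1, inner_pr (h.inv.mem hη)]

/-- commuting sets -/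
def CC (S T : Set G) : Prop := ∀ s ∈ S, ∀ t ∈ T, s * t = t * s

theorem CC.symm {S T : Set G} (h : CC S T) : CC T S := fun t ht s hs => (h s hs t ht).symm

theorem CC.pr_mem {S T : Set G} (h : CC S T) (hσ : URep σ) {ξ : 𝓗} (hξ : ξ ∈ fx σ T) :
    pr σ S ξ ∈ fx σ T := by
  intro t ht
  have hc : Cm t S := fun s hs => (h s hs t ht).symm
  rw [hc.pr hσ, hξ t ht]

theorem CC.pr_pr {S T : Set G} (h : CC S T) (hσ : URep σ) (ξ : 𝓗) :
    pr σ S (pr σ T ξ) = pr σ (S ∪ T) ξ := by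
  symm
  refine pr_eq (fun g hg => ?_) fun η hη => ?_
  · rcases hg with hg | hg
    · exact Vale.Agent.P092.H252.pr_mem S _ g hg
    · exact h.pr_mem hσ (Vale.Agent.P092.H252.pr_mem T ξ) g hg
  · rw [inner_pr (fx_mono Set.subset_union_left hη), inner_pr (fx_mono Set.subset_union_right hη)]

theorem CC.pr_comm {S T : Set G} (h : CC S T) (hσ : URep σ) (ξ : 𝓗) :
    pr σ S (pr σ T ξ) = pr σ T (pr σ S ξ) := by
  rw [h.pr_pr hσ, h.symm.pr_pr hσ, Set.union_comm]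

/-- orthogonality to the fixed vectors of `T` -/
def Op (σ : G →* (𝓗 →L[ℂ] 𝓗)) (T : Set G) (ξ : 𝓗) : Prop := ∀ η ∈ fx σ T, ⟪ξ, η⟫_ℂ = 0

theorem Op.pr {S T : Set G} (h : CC S T) (hσ : URep σ) {ξ : 𝓗} (hξ : Op σ T ξ) :
    Op σ T (pr σ S ξ) := fun η hη => by
  rw [inner_pr_comm]
  exact hξ _ (h.pr_mem hσ hη)

theorem op_sub {S T : Set G} (h : S ⊆ T) (ξ : 𝓗) : Op σ T (pr σ S ξ - pr σ T ξ) := fun η hη => by
  rw [inner_sub_left, inner_pr (fx_mono h hη), inner_pr hη, sub_self]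

theorem Op.map {g : G} {T : Set G} (h : Cm g T) (hσ : URep σ) {ξ : 𝓗} (hξ : Op σ T ξ) :
    Op σ T (σ g ξ) := fun η hη => by
  have := hσ.inner_map g ξ (σ g⁻¹ η)
  rw [mulA, mul_inv_cancel, map_one] at this
  rw [show (1 : 𝓗 →L[ℂ] 𝓗) η = η from rfl] at this
  rw [this]
  exact hξ _ (h.inv.mem hη)

/-- A nonempty closed convex set has a point which is fixed by all maps of the set into itself
which do not increase the norm. -/
theorem exists_min_fixed {H : Type*} [NormedAddCommGroup H] [InnerProductSpace ℂ H]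
    [CompleteSpace H] {K : Set H} (hne : K.Nonempty) (hcl : IsClosed K) (hc : Convex ℝ K) :
    ∃ ζ ∈ K, ∀ W : H → H, (∀ x ∈ K, ‖W x‖ ≤ ‖x‖) → (∀ x ∈ K, W x ∈ K) → W ζ = ζ := by
  obtain ⟨v, hv, hmin⟩ : ∃ v ∈ K, ∀ w ∈ K, ‖v‖ ≤ ‖w‖ := by
    let _ := InnerProductSpace.rclikeToReal ℂ H
    obtain ⟨v, hv, h⟩ := exists_norm_eq_iInf_of_complete_convex hne hcl.isComplete hc (0 : H)
    refine ⟨v, hv, fun w hw => ?_⟩
    rw [zero_sub, norm_neg] at h
    rw [h]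
    have hb : BddBelow (Set.range fun w : K => ‖(0 : H) - w‖) :=
      ⟨0, by rintro _ ⟨w, rfl⟩; exact norm_nonneg _⟩
    refine (ciInf_le hb ⟨w, hw⟩).trans ?_
    rw [zero_sub, norm_neg]
  refine ⟨v, hv, fun W hW hWK => ?_⟩
  obtain ⟨w, hw⟩ : ∃ w, w = W v := ⟨_, rfl⟩
  rw [← hw]
  have hwK : w ∈ K := by rw [hw]; exact hWK v hv
  have hwn : ‖w‖ ≤ ‖v‖ := by rw [hw]; exact hW v hv
  have hm : (1 / 2 : ℝ) • v + (1 / 2 : ℝ) • w ∈ K :=
    hc hv hwK (by norm_num) (by norm_num) (by norm_num)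
  have h1 := hmin _ hm
  rw [← smul_add, norm_smul, Real.norm_of_nonneg (by norm_num : (0 : ℝ) ≤ 1 / 2)] at h1
  have h2 := parallelogram_law_with_norm ℂ v w
  have h3 : ‖v - w‖ * ‖v - w‖ ≤ 0 := by nlinarith [norm_nonneg v, norm_nonneg w, norm_nonneg (v + w)]
  have h4 : ‖v - w‖ = 0 := by nlinarith [norm_nonneg (v - w)]
  rw [norm_eq_zero, sub_eq_zero] at h4
  exact h4.symm

/-- Small displacement gives a nearby fixed vector. -/
theorem norm_sub_pr_le_of (hσ : URep σ) (S : Subgroup G) {v : 𝓗} {δ : ℝ} (hδ : 0 ≤ δ)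
    (h : ∀ g ∈ S, ‖σ g v - v‖ ≤ δ) : ‖v - pr σ (S : Set G) v‖ ≤ δ := by
  obtain ⟨K, hK⟩ : ∃ K : Set 𝓗, K = {ξ | ∀ g ∈ S, ‖σ g ξ - v‖ ≤ δ} := ⟨_, rfl⟩
  have hne : K.Nonempty := ⟨v, by rw [hK]; exact h⟩
  have hcl : IsClosed K := by
    have : K = ⋂ g ∈ S, {ξ | ‖σ g ξ - v‖ ≤ δ} := by
      rw [hK]; ext ξ
      simp only [Set.mem_iInter]
      exact Iff.rfl
    rw [this]
    exact isClosed_biInter fun g _ =>
      isClosed_le (((σ g).continuous.sub continuous_const).norm) continuous_const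
  have hc : Convex ℝ K := by
    rw [hK]
    intro x hx y hy a b ha hb hab g hg
    have e : σ g (a • x + b • y) - v = a • (σ g x - v) + b • (σ g y - v) := by
      have h1 : σ g (a • x + b • y) = a • σ g x + b • σ g y := by
        rw [map_add, ← Complex.coe_smul a x, ← Complex.coe_smul b y, map_smul, map_smul,
          Complex.coe_smul, Complex.coe_smul]
      rw [h1, smul_sub, smul_sub]
      have : v = a • v + b • v := by rw [← add_smul, hab, one_smul]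
      nth_rw 1 [this]
      abel
    rw [e]
    refine (norm_add_le _ _).trans ?_
    rw [norm_smul, norm_smul, Real.norm_of_nonneg ha, Real.norm_of_nonneg hb]
    calc a * ‖σ g x - v‖ + b * ‖σ g y - v‖ ≤ a * δ + b * δ :=
          add_le_add (mul_le_mul_of_nonneg_left (hx g hg) ha)
            (mul_le_mul_of_nonneg_left (hy g hg) hb)
      _ = δ := by rw [← add_mul, hab, one_mul]
  obtain ⟨ζ, hζ, hfix⟩ := exists_min_fixed hne hcl hc
  have h1 : ζ ∈ fx σ (S : Set G) := by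
    intro g hg
    refine hfix (fun x => σ g x) (fun x _ => (hσ.iso g x).le) fun x hx => ?_
    rw [hK] at hx ⊢
    intro g' hg'
    rw [mulA]
    exact hx _ (S.mul_mem hg' hg)
  have h2 : ‖ζ - v‖ ≤ δ := by
    have := hfix (fun x => σ 1 x) (fun x _ => (hσ.iso 1 x).le) (fun x hx => by
      rw [map_one]; exact hx)
    rw [hK] at hζ
    have h3 := hζ 1 S.one_mem
    rwa [map_one] at h3
  have h3 : ‖v - pr σ (S : Set G) v‖ ≤ ‖v - ζ‖ := by
    have e : v - ζ = (v - pr σ (S : Set G) v) + (pr σ (S : Set G) v - ζ) := by abel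
    have ho : ⟪v - pr σ (S : Set G) v, pr σ (S : Set G) v - ζ⟫_ℂ = 0 := by
      rw [inner_sub_left, inner_pr (Submodule.sub_mem _ (pr_mem _ _) h1), sub_self]
    have h4 := norm_add_sq_eq_norm_sq_add_norm_sq_of_inner_eq_zero (𝕜 := ℂ) _ _ ho
    rw [← e] at h4
    nlinarith [norm_nonneg (v - ζ), norm_nonneg (v - pr σ (S : Set G) v),
      mul_self_nonneg (‖pr σ (S : Set G) v - ζ‖)]
  rw [norm_sub_rev] at h2
  exact h3.trans h2

end abs

section pp

variable {G : Type*} [Group G] [TopologicalSpace G] {𝓗 : Type*} [NormedAddCommGroup 𝓗]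
  [InnerProductSpace ℂ 𝓗] {σ : G →* (𝓗 →L[ℂ] 𝓗)} [CompleteSpace 𝓗]

/-- the pieces of the cone -/
noncomputable def bb (σ : G →* (𝓗 →L[ℂ] 𝓗)) (P Q : ℕ → Set G) (v : 𝓗) (j : ℕ) : 𝓗 :=
  pr σ (P j) (pr σ (Q j) v - pr σ (Q (j + 1)) v)

/-- the conjugate of a set -/
def cj (g : G) (S : Set G) : Set G := (fun s => g * s * g⁻¹) '' S

theorem cj_mem {g : G} {S : Set G} {ξ : 𝓗} (h : ξ ∈ fx σ S) : σ g ξ ∈ fx σ (cj g S) := by
  rintro _ ⟨s, hs, rfl⟩
  rw [mulA, show g * s * g⁻¹ * g = g * s by group, ← mulA, h s hs]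

/-- commuting families of increasing sets -/
structure Inc (P Q : ℕ → Set G) : Prop where
  cc : ∀ i j, CC (P i) (Q j)
  mono : Monotone Q

theorem Inc.memP {P Q : ℕ → Set G} (v : 𝓗) (j : ℕ) : bb σ P Q v j ∈ fx σ (P j) := pr_mem _ _

theorem Inc.memQ {P Q : ℕ → Set G} (h : Inc P Q) (hσ : URep σ) (v : 𝓗) (j : ℕ) :
    bb σ P Q v j ∈ fx σ (Q j) := by
  refine (h.cc j j).pr_mem hσ (Submodule.sub_mem _ (pr_mem _ _) ?_)
  exact fx_mono (h.mono (Nat.le_succ j)) (pr_mem _ _)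

theorem Inc.op {P Q : ℕ → Set G} (h : Inc P Q) (hσ : URep σ) (v : 𝓗) (j : ℕ) :
    Op σ (Q (j + 1)) (bb σ P Q v j) :=
  (op_sub (h.mono (Nat.le_succ j)) v).pr (h.cc j (j + 1)) hσ

/-- a pair of elements playing ping-pong -/
structure Ping (σ : G →* (𝓗 →L[ℂ] 𝓗)) (P Q : ℕ → Set G) (g g' : G) : Prop where
  cm : ∀ j, Cm g (Q j)
  cm' : ∀ j, Cm g' (Q j)
  cc : ∀ j, CC (cj g (P j)) (Q j)
  cc2 : ∀ j, CC (cj g (P j)) (cj g' (P j))
  key : ∀ j ξ, ξ ∈ fx σ (cj g (P j)) → ξ ∈ fx σ (cj g' (P j)) → ξ ∈ fx σ (Q j) →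
    ξ ∈ fx σ (Q (j + 1))

theorem Ping.orth {P Q : ℕ → Set G} (h : Inc P Q) (hσ : URep σ) {g g' : G}
    (hp : Ping σ P Q g g') (v : 𝓗) (j m : ℕ) :
    ⟪σ g (bb σ P Q v j), σ g' (bb σ P Q v m)⟫_ℂ = 0 := by
  rcases lt_trichotomy j m with hjm | rfl | hjm
  · refine ((h.op hσ v j).map (hp.cm (j + 1)) hσ) _ ?_
    exact fx_mono (h.mono hjm) ((hp.cm' m).mem (h.memQ hσ v m))
  · have h1 : σ g (bb σ P Q v j) ∈ fx σ (cj g (P j)) := cj_mem (pr_mem _ _)
    rw [← inner_pr' h1]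
    refine ((h.op hσ v j).map (hp.cm (j + 1)) hσ) _ (hp.key j _ (pr_mem _ _) ?_ ?_)
    · exact (hp.cc2 j).pr_mem hσ (cj_mem (pr_mem _ _))
    · exact (hp.cc j).pr_mem hσ ((hp.cm' j).mem (h.memQ hσ v j))
  · rw [← inner_conj_symm]
    rw [((h.op hσ v m).map (hp.cm' (m + 1)) hσ) _
      (fx_mono (h.mono hjm) ((hp.cm j).mem (h.memQ hσ v j))), map_zero]

theorem Ping.orth_sum {P Q : ℕ → Set G} (h : Inc P Q) (hσ : URep σ) {g g' : G}
    (hp : Ping σ P Q g g') (v : 𝓗) (n : ℕ) :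
    ⟪σ g (∑ j ∈ Finset.range n, bb σ P Q v j), σ g' (∑ j ∈ Finset.range n, bb σ P Q v j)⟫_ℂ =
      0 := by
  rw [map_sum, map_sum, sum_inner]
  refine Finset.sum_eq_zero fun j _ => ?_
  rw [inner_sum]
  exact Finset.sum_eq_zero fun m _ => hp.orth h hσ v j m

/-- sums over orthogonal translates -/
theorem norm_sum_orth {p : ℕ} (hσ : URep σ) {g : Fin p → G} {ζ : 𝓗}
    (h : ∀ a b, a ≠ b → ⟪σ (g a) ζ, σ (g b) ζ⟫_ℂ = 0) :
    ‖∑ a, σ (g a) ζ‖ = Real.sqrt p * ‖ζ‖ := by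
  have h1 : ⟪∑ a, σ (g a) ζ, ∑ b, σ (g b) ζ⟫_ℂ = ∑ a, ⟪σ (g a) ζ, σ (g a) ζ⟫_ℂ := by
    rw [sum_inner]
    refine Finset.sum_congr rfl fun a _ => ?_
    rw [inner_sum]
    exact Finset.sum_eq_single a (fun b _ hb => h a b (Ne.symm hb))
      (fun hh => absurd (Finset.mem_univ a) hh)
  have h2 : (‖∑ a, σ (g a) ζ‖ ^ 2 : ℝ) = p * ‖ζ‖ ^ 2 := by
    rw [@norm_sq_eq_re_inner ℂ, h1, map_sum]
    rw [Finset.sum_congr rfl fun a _ => by
      rw [← @norm_sq_eq_re_inner ℂ, hσ.iso]]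
    simp
  rw [← Real.sqrt_sq (norm_nonneg (∑ a, σ (g a) ζ)), h2, Real.sqrt_mul (Nat.cast_nonneg p),
    Real.sqrt_sq (norm_nonneg ζ)]

/-- **One ping-pong step.** -/
theorem step_bound (hσ : URep σ) {X Y : ℕ → Set G} (hXY : Inc X Y)
    (hYX : Inc (fun j => Y (j + 1)) X) {p : ℕ} {g h : Fin p → G}
    (hg : ∀ a b, a ≠ b → Ping σ X Y (g a) (g b))
    (hh : ∀ a b, a ≠ b → Ping σ (fun j => Y (j + 1)) X (h a) (h b)) {v : 𝓗} {δ : ℝ} (n : ℕ)
    (h0 : ‖v - pr σ (X 0) (pr σ (Y 0) v)‖ ≤ δ) (hn : ‖pr σ (X n) (pr σ (Y n) v)‖ ≤ δ) :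
    ‖∑ a, σ (g a) v‖ + ‖∑ a, σ (h a) v‖ ≤
      4 * p * δ + (p + Real.sqrt p) * (Real.sqrt 2 * ‖v‖) := by
  obtain ⟨B, hB⟩ : ∃ B, B = ∑ j ∈ Finset.range n, bb σ X Y v j := ⟨_, rfl⟩
  obtain ⟨A, hA⟩ : ∃ A, A = ∑ j ∈ Finset.range n, bb σ (fun j => Y (j + 1)) X v j := ⟨_, rfl⟩
  -- telescoping
  have htel : A + B = pr σ (X 0) (pr σ (Y 0) v) - pr σ (X n) (pr σ (Y n) v) := by
    rw [hA, hB, ← Finset.sum_add_distrib,
      ← Finset.sum_range_sub' (fun j => pr σ (X j) (pr σ (Y j) v)) n]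
    refine Finset.sum_congr rfl fun j _ => ?_
    unfold bb
    rw [map_sub, map_sub, (hXY.cc j (j + 1)).symm.pr_comm hσ, (hXY.cc (j + 1) (j + 1)).symm.pr_comm hσ]
    abel
  -- orthogonality of the two cones
  have hAB : ⟪A, B⟫_ℂ = 0 := by
    rw [hA, hB, sum_inner]
    refine Finset.sum_eq_zero fun j _ => ?_
    rw [inner_sum]
    refine Finset.sum_eq_zero fun l _ => ?_
    rcases Nat.lt_or_ge j l with hjl | hjl
    · exact hYX.op hσ v j _ (fx_mono (hYX.mono hjl) (Inc.memP v l))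
    · rw [← inner_conj_symm, hXY.op hσ v l _ (fx_mono (hXY.mono (Nat.succ_le_succ hjl))
        (Inc.memP (P := fun j => Y (j + 1)) v j)), map_zero]
  have hsum : ‖A‖ ^ 2 + ‖B‖ ^ 2 ≤ ‖v‖ ^ 2 := by
    have h1 := norm_add_sq_eq_norm_sq_add_norm_sq_of_inner_eq_zero (𝕜 := ℂ) _ _ hAB
    have h2 : ‖A + B‖ ≤ ‖v‖ := by
      rw [htel]
      have e : pr σ (X n) (pr σ (Y n) v) =
          pr σ (X n ∪ Y n) (pr σ (X 0) (pr σ (Y 0) v)) := by
        rw [(hXY.cc n n).pr_pr hσ, (hXY.cc 0 0).pr_pr hσ]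
        refine pr_eq (pr_mem _ _) fun η hη => ?_
        rw [inner_pr hη, inner_pr (fx_mono (Set.union_subset_union (hYX.mono (Nat.zero_le n))
          (hXY.mono (Nat.zero_le n))) hη)]
      rw [e]
      exact (norm_sub_pr_le _ _).trans ((norm_pr_le _ _).trans (norm_pr_le _ _))
    nlinarith [norm_nonneg (A + B), norm_nonneg v]
  -- the sum of the two norms
  have hs2 : ‖A‖ + ‖B‖ ≤ Real.sqrt 2 * ‖v‖ := by
    have h1 : (‖A‖ + ‖B‖) ^ 2 ≤ (Real.sqrt 2 * ‖v‖) ^ 2 := by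
      rw [mul_pow, Real.sq_sqrt (by norm_num)]
      nlinarith [sq_nonneg (‖A‖ - ‖B‖)]
    exact (abs_le_of_sq_le_sq' h1 (by positivity)).2
  obtain ⟨d, hd⟩ : ∃ d, d = (v - pr σ (X 0) (pr σ (Y 0) v)) + pr σ (X n) (pr σ (Y n) v) :=
    ⟨_, rfl⟩
  have hdn : ‖d‖ ≤ 2 * δ := by
    rw [hd]; exact (norm_add_le _ _).trans (by linarith)
  have hv : v = d + (A + B) := by rw [htel, hd]; abel
  have hbd : ∀ (f : Fin p → G) (x : 𝓗), ‖∑ a, σ (f a) x‖ ≤ p * ‖x‖ := by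
    intro f x
    refine (norm_sum_le _ _).trans ?_
    simp only [hσ.iso, Finset.sum_const, Finset.card_univ, Fintype.card_fin, nsmul_eq_mul]
    exact le_rfl
  have e1 : ‖∑ a, σ (g a) B‖ = Real.sqrt p * ‖B‖ := norm_sum_orth hσ fun a b hab => by
    rw [hB]; exact (hg a b hab).orth_sum hXY hσ v n
  have e2 : ‖∑ a, σ (h a) A‖ = Real.sqrt p * ‖A‖ := norm_sum_orth hσ fun a b hab => by
    rw [hA]; exact (hh a b hab).orth_sum hYX hσ v n
  have k1 : ‖∑ a, σ (g a) v‖ ≤ p * (2 * δ) + (p * ‖A‖ + Real.sqrt p * ‖B‖) := by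
    have : ∑ a, σ (g a) v = ∑ a, σ (g a) d + (∑ a, σ (g a) A + ∑ a, σ (g a) B) := by
      rw [← Finset.sum_add_distrib, ← Finset.sum_add_distrib]
      refine Finset.sum_congr rfl fun a _ => ?_
      rw [← map_add, ← map_add, ← hv]
    rw [this]
    refine (norm_add_le _ _).trans (add_le_add ((hbd g d).trans ?_) ?_)
    · exact mul_le_mul_of_nonneg_left hdn (Nat.cast_nonneg p)
    · refine (norm_add_le _ _).trans (add_le_add (hbd g A) e1.le)
  have k2 : ‖∑ a, σ (h a) v‖ ≤ p * (2 * δ) + (Real.sqrt p * ‖A‖ + p * ‖B‖) := by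
    have : ∑ a, σ (h a) v = ∑ a, σ (h a) d + (∑ a, σ (h a) A + ∑ a, σ (h a) B) := by
      rw [← Finset.sum_add_distrib, ← Finset.sum_add_distrib]
      refine Finset.sum_congr rfl fun a _ => ?_
      rw [← map_add, ← map_add, ← hv]
    rw [this]
    refine (norm_add_le _ _).trans (add_le_add ((hbd h d).trans ?_) ?_)
    · exact mul_le_mul_of_nonneg_left hdn (Nat.cast_nonneg p)
    · refine (norm_add_le _ _).trans (add_le_add e2.le (hbd h B))
  have hp0 : 0 ≤ (p : ℝ) + Real.sqrt p := by positivity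
  have k3 := mul_le_mul_of_nonneg_left hs2 hp0
  nlinarith

end pp

section mat

variable {N : ℕ} {k : Type*} [Field k]

theorem tr_comm {i j a b : Fin N} (hij : i ≠ j) (hab : a ≠ b) (h1 : j ≠ a) (h2 : i ≠ b) (x y : k) :
    (transvection hij x : SpecialLinearGroup (Fin N) k) * transvection hab y =
      transvection hab y * transvection hij x := by
  refine Subtype.ext ?_
  rw [Matrix.SpecialLinearGroup.coe_mul, Matrix.SpecialLinearGroup.coe_mul]
  show (transvection hij x : SpecialLinearGroup (Fin N) k).1 *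
    (transvection hab y : SpecialLinearGroup (Fin N) k).1 =
    (transvection hab y : SpecialLinearGroup (Fin N) k).1 *
    (transvection hij x : SpecialLinearGroup (Fin N) k).1
  rw [transvection_coe, transvection_coe]
  simp only [Matrix.mul_add, Matrix.add_mul, Matrix.mul_one, Matrix.one_mul]
  rw [Matrix.single_mul_single_of_ne _ _ _ _ h1, Matrix.single_mul_single_of_ne _ _ _ _ h2.symm]
  abel

theorem tr_inv {i j : Fin N} (hij : i ≠ j) (x : k) :
    (transvection hij x : SpecialLinearGroup (Fin N) k)⁻¹ = transvection hij (-x) := by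
  rw [inv_eq_iff_mul_eq_one, ← transvection_add, add_neg_cancel, transvection_coeff_zero]

/-- `T_ab(t) U_ia(x) T_ab(t)⁻¹ = U_ia(x) U_ib(-t x)` -/
theorem tr_conj {i a b : Fin N} (hia : i ≠ a) (hib : i ≠ b) (hab : a ≠ b) (t x : k) :
    (transvection hab t : SpecialLinearGroup (Fin N) k) * transvection hia x *
      (transvection hab t)⁻¹ = transvection hia x * transvection hib (-(t * x)) := by
  rw [mul_inv_eq_iff_eq_mul]
  refine Subtype.ext ?_
  rw [Matrix.SpecialLinearGroup.coe_mul, Matrix.SpecialLinearGroup.coe_mul,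
    Matrix.SpecialLinearGroup.coe_mul]
  show (transvection hab t : SpecialLinearGroup (Fin N) k).1 *
    (transvection hia x : SpecialLinearGroup (Fin N) k).1 =
    (transvection hia x : SpecialLinearGroup (Fin N) k).1 *
    (transvection hib _ : SpecialLinearGroup (Fin N) k).1 *
    (transvection hab t : SpecialLinearGroup (Fin N) k).1
  simp only [transvection_coe]
  simp only [Matrix.mul_add, Matrix.add_mul, Matrix.mul_one, Matrix.one_mul]
  rw [Matrix.single_mul_single_of_ne _ _ _ _ hib.symm, Matrix.single_mul_single_of_ne _ _ _ _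
    hia.symm, Matrix.single_mul_single_same, Matrix.single_mul_single_of_ne _ _ _ _ hab.symm]
  ext u v
  simp only [Matrix.add_apply, Matrix.single_apply, Matrix.zero_apply, Matrix.zero_mul]
  split_ifs <;> ring

end mat

section conc

variable {N : ℕ} {k : Type} [NontriviallyNormedField k]
  {𝓗 : Type*} [NormedAddCommGroup 𝓗] [InnerProductSpace ℂ 𝓗] [CompleteSpace 𝓗]
  {σ : SpecialLinearGroup (Fin N) k →* (𝓗 →L[ℂ] 𝓗)}

/-- balls of a root group -/
def Ub {i j : Fin N} (hij : i ≠ j) (r : ℝ) : Set (SpecialLinearGroup (Fin N) k) :=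
  {g | ∃ x : k, ‖x‖ ≤ r ∧ g = transvection hij x}

theorem Ub_mono {i j : Fin N} (hij : i ≠ j) {r s : ℝ} (h : r ≤ s) :
    Ub (k := k) hij r ⊆ Ub hij s := by
  rintro g ⟨x, hx, rfl⟩
  exact ⟨x, hx.trans h, rfl⟩

theorem Ub_cc {i a b : Fin N} (hia : i ≠ a) (hib : i ≠ b) (r s : ℝ) :
    CC (Ub (k := k) hia r) (Ub hib s) := by
  rintro g ⟨x, -, rfl⟩ g' ⟨y, -, rfl⟩
  exact tr_comm hia hib hia.symm hib x y

/-- **Ping-pong for shears.** -/
theorem ping_tr {i a b : Fin N} (hia : i ≠ a) (hib : i ≠ b) (hab : a ≠ b) {q : ℝ}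
    {RP RQ : ℕ → ℝ} (hR : ∀ m, RQ (m + 1) ≤ q * RP m) (hR0 : ∀ m, 0 ≤ RP m) {t t' : k}
    (hq : 0 < q) (ht : q ≤ ‖t' - t‖) :
    Ping σ (fun m => Ub hia (RP m)) (fun m => Ub hib (RQ m)) (transvection hab t)
      (transvection hab t') where
  cm j := by
    rintro s ⟨y, -, rfl⟩
    exact tr_comm hab hib hib.symm hab _ y
  cm' j := by
    rintro s ⟨y, -, rfl⟩
    exact tr_comm hab hib hib.symm hab _ y
  cc j := by
    rintro _ ⟨s, ⟨x, -, rfl⟩, rfl⟩ g' ⟨y, -, rfl⟩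
    beta_reduce
    rw [tr_conj hia hib hab]
    rw [mul_assoc, tr_comm hib hib hib.symm hib, ← mul_assoc, tr_comm hia hib hia.symm hib,
      mul_assoc]
  cc2 j := by
    rintro _ ⟨s, ⟨x, -, rfl⟩, rfl⟩ _ ⟨s', ⟨y, -, rfl⟩, rfl⟩
    beta_reduce
    rw [tr_conj hia hib hab, tr_conj hia hib hab]
    have h1 := tr_comm (N := N) (k := k) hia hia hia.symm hia x y
    have h2 := tr_comm (N := N) (k := k) hib hib hib.symm hib (-(t * x)) (-(t' * y))
    have h3 := tr_comm (N := N) (k := k) hia hib hia.symm hib x (-(t' * y))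
    have h4 := tr_comm (N := N) (k := k) hia hib hia.symm hib y (-(t * x))
    calc (transvection hia x : SpecialLinearGroup (Fin N) k) * transvection hib (-(t * x)) *
          (transvection hia y * transvection hib (-(t' * y)))
        = transvection hia x * (transvection hib (-(t * x)) * transvection hia y) *
          transvection hib (-(t' * y)) := by group
      _ = (transvection hia x * transvection hia y) *
          (transvection hib (-(t * x)) * transvection hib (-(t' * y))) := by rw [← h4]; group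
      _ = transvection hia y * (transvection hia x * transvection hib (-(t' * y))) *
          transvection hib (-(t * x)) := by rw [h1, h2]; group
      _ = _ := by rw [h3]; group
  key j ξ h1 h2 h3 := by
    rintro g ⟨y, hy, rfl⟩
    have hne : t' - t ≠ 0 := by
      intro h
      rw [h, norm_zero] at ht
      linarith
    obtain ⟨x, hx⟩ : ∃ x, x = y / (t' - t) := ⟨_, rfl⟩
    have hxy : y = (t' - t) * x := by rw [hx]; field_simp
    have hxn : ‖x‖ ≤ RP j := by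
      have h4 : ‖t' - t‖ * ‖x‖ ≤ q * RP j := by
        rw [← norm_mul, ← hxy]; exact hy.trans (hR j)
      have h5 : q * ‖x‖ ≤ q * RP j :=
        (mul_le_mul_of_nonneg_right ht (norm_nonneg x)).trans h4
      exact le_of_mul_le_mul_left h5 hq
    have e1 : σ (transvection hia x * transvection hib (-(t * x))) ξ = ξ := by
      have := h1 _ ⟨transvection hia x, ⟨x, hxn, rfl⟩, rfl⟩
      beta_reduce at this
      rwa [tr_conj hia hib hab] at this
    have e2 : σ (transvection hia x * transvection hib (-(t' * x))) ξ = ξ := by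
      have := h2 _ ⟨transvection hia x, ⟨x, hxn, rfl⟩, rfl⟩
      beta_reduce at this
      rwa [tr_conj hia hib hab] at this
    have e3 : (transvection hib y : SpecialLinearGroup (Fin N) k) =
        (transvection hia x * transvection hib (-(t' * x)))⁻¹ *
          (transvection hia x * transvection hib (-(t * x))) := by
      rw [_root_.mul_inv_rev, mul_assoc, inv_mul_cancel_left, tr_inv, ← transvection_add]
      congr 1
      rw [hxy]; ring
    have e4 : σ (transvection hia x * transvection hib (-(t' * x)))⁻¹ ξ = ξ := by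
      nth_rw 1 [← e2]
      rw [mulA, inv_mul_cancel, map_one]
      rfl
    rw [e3, ← mulA, e1, e4]

/-- the ball as a subgroup -/
def UbS (hk : IsUltrametricDist k) {i j : Fin N} (hij : i ≠ j) {r : ℝ} (hr : 0 ≤ r) :
    Subgroup (SpecialLinearGroup (Fin N) k) where
  carrier := Ub hij r
  mul_mem' := by
    rintro _ _ ⟨x, hx, rfl⟩ ⟨y, hy, rfl⟩
    exact ⟨x + y, (IsUltrametricDist.norm_add_le_max x y).trans (max_le hx hy),
      (transvection_add _ _ _).symm⟩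
  one_mem' := ⟨0, by rw [norm_zero]; exact hr, (transvection_coeff_zero _).symm⟩
  inv_mem' := by
    rintro _ ⟨x, hx, rfl⟩
    exact ⟨-x, by rw [norm_neg]; exact hx, tr_inv hij x⟩

/-- small balls move a vector a little -/
theorem exists_small (hσ : URep σ) {i j : Fin N} (hij : i ≠ j) (v : 𝓗) {δ : ℝ} (hδ : 0 < δ) :
    ∃ r > 0, ∀ x : k, ‖x‖ ≤ r → ‖σ (transvection hij x) v - v‖ ≤ δ := by
  have h1 : Tendsto (fun x : k => σ (transvection hij x) v) (𝓝 0) (𝓝 v) :=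
    (hσ.cont v).comp (tendsto_transvection hij tendsto_id)
  have h2 := (Metric.tendsto_nhds.1 h1) δ hδ
  obtain ⟨ε, hε, h3⟩ := Metric.eventually_nhds_iff.1 h2
  refine ⟨ε / 2, by positivity, fun x hx => ?_⟩
  have := h3 (y := x) (by rw [dist_zero_right]; linarith)
  rw [dist_eq_norm] at this
  exact this.le

/-- a vector fixed by one root group is fixed -/
theorem mem_fixed (hσ : URep σ) {i j : Fin N} (hij : i ≠ j) {η : 𝓗}
    (h : ∀ x : k, σ (transvection hij x) η = η) : η ∈ fixedSub σ := by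
  have h1 := (hσ.len η).eq_top hij fun s => by
    show ‖σ (transvection hij s) η - η‖ = 0
    rw [h s, sub_self, norm_zero]
  intro g
  have h2 : g ∈ (hσ.len η).ker := by rw [h1]; trivial
  have h3 : ‖σ g η - η‖ = 0 := h2
  exact sub_eq_zero.1 (norm_eq_zero.1 h3)

end conc

section lim

variable {G : Type*} [Group G] [TopologicalSpace G] {𝓗 : Type*} [NormedAddCommGroup 𝓗]
  [InnerProductSpace ℂ 𝓗] {σ : G →* (𝓗 →L[ℂ] 𝓗)} [CompleteSpace 𝓗]

/-- decreasing projections tend to zero on vectors orthogonal to the intersection -/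
theorem pr_tendsto_zero {S : ℕ → Set G} (hS : Monotone S) {v : 𝓗}
    (hv : ∀ η, (∀ n, η ∈ fx σ (S n)) → ⟪η, v⟫_ℂ = 0) :
    Tendsto (fun n => ‖pr σ (S n) v‖) atTop (𝓝 0) := by
  have hpy : ∀ n m, n ≤ m → ‖pr σ (S n) v - pr σ (S m) v‖ ^ 2 =
      ‖pr σ (S n) v‖ ^ 2 - ‖pr σ (S m) v‖ ^ 2 := by
    intro n m hnm
    have h1 : ⟪pr σ (S n) v - pr σ (S m) v, pr σ (S m) v⟫_ℂ = 0 :=
      op_sub (hS hnm) v _ (pr_mem _ _)
    have h2 := norm_add_sq_eq_norm_sq_add_norm_sq_of_inner_eq_zero (𝕜 := ℂ) _ _ h1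
    rw [sub_add_cancel] at h2
    nlinarith
  have hanti : Antitone fun n => ‖pr σ (S n) v‖ ^ 2 := fun n m hnm => by
    have := hpy n m hnm
    nlinarith [sq_nonneg ‖pr σ (S n) v - pr σ (S m) v‖]
  have hbdd : BddBelow (Set.range fun n => ‖pr σ (S n) v‖ ^ 2) :=
    ⟨0, by rintro _ ⟨n, rfl⟩; positivity⟩
  have hconv := tendsto_atTop_ciInf hanti hbdd
  have hc : CauchySeq fun n => pr σ (S n) v := by
    rw [Metric.cauchySeq_iff']
    intro ε hε
    have hcs := hconv.cauchySeq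
    rw [Metric.cauchySeq_iff'] at hcs
    obtain ⟨M, hM⟩ := hcs (ε ^ 2) (by positivity)
    refine ⟨M, fun n hn => ?_⟩
    have h1 := hM n hn
    rw [Real.dist_eq] at h1
    have h2 := hpy M n hn
    rw [dist_comm, dist_eq_norm]
    have h3 : ‖pr σ (S M) v - pr σ (S n) v‖ ^ 2 < ε ^ 2 := by
      rw [h2]
      have := abs_lt.1 h1
      linarith [this.1]
    exact lt_of_pow_lt_pow_left₀ 2 hε.le h3
  obtain ⟨w, hw⟩ := cauchySeq_tendsto_of_complete hc
  have hwm : ∀ n, w ∈ fx σ (S n) := fun n =>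
    (isClosed_fx σ (S n)).mem_of_tendsto hw
      (eventually_atTop.2 ⟨n, fun m hm => fx_mono (hS hm) (pr_mem _ _)⟩)
  have h1 : ∀ n, ⟪w, pr σ (S n) v⟫_ℂ = 0 := fun n => by
    rw [inner_pr' (hwm n)]; exact hv w hwm
  have h2 : Tendsto (fun n => ⟪w, pr σ (S n) v⟫_ℂ) atTop (𝓝 ⟪w, w⟫_ℂ) :=
    tendsto_const_nhds.inner hw
  have h3 : ⟪w, w⟫_ℂ = 0 :=
    tendsto_nhds_unique h2 (tendsto_const_nhds.congr fun n => (h1 n).symm)
  have h4 : w = 0 := inner_self_eq_zero.1 h3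
  rw [h4] at hw
  simpa using hw.norm

end lim

section final

variable {N : ℕ} {k : Type} [NontriviallyNormedField k]
  {𝓗 : Type*} [NormedAddCommGroup 𝓗] [InnerProductSpace ℂ 𝓗] [CompleteSpace 𝓗]
  {σ : SpecialLinearGroup (Fin N) k →* (𝓗 →L[ℂ] 𝓗)}

theorem pow_sep (hk : IsUltrametricDist k) {c : k} (hc : 1 < ‖c‖) {a b : ℕ} (hab : a ≠ b) :
    ‖c‖ ≤ ‖c ^ (a + 1) - c ^ (b + 1)‖ := by
  have hne : ‖c ^ (a + 1)‖ ≠ ‖c ^ (b + 1)‖ := by
    rw [norm_pow, norm_pow]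
    intro h
    exact hab (Nat.succ_injective (pow_right_injective₀ (by linarith) hc.ne' h))
  have h1 : ‖c ^ (a + 1) - c ^ (b + 1)‖ = max ‖c ^ (a + 1)‖ ‖c ^ (b + 1)‖ := by
    rw [sub_eq_add_neg, IsUltrametricDist.norm_add_eq_max_of_norm_ne_norm (by rwa [norm_neg]),
      norm_neg]
  rw [h1, norm_pow]
  refine le_trans ?_ (le_max_left _ _)
  exact le_self_pow₀ hc.le (Nat.succ_ne_zero a)

/-- **The averaged step**: `18` shears contract by `2√2/3`. -/
theorem step18 (hk : IsUltrametricDist k) (hσ : URep σ) {i j l : Fin N} (hij : i ≠ j)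
    (hil : i ≠ l) (hjl : j ≠ l) {c : k} (hc : 1 < ‖c‖) {v : 𝓗}
    (hv : ∀ η ∈ fixedSub σ, ⟪η, v⟫_ℂ = 0) :
    ‖∑ a : Fin 9, σ (transvection hjl (c ^ ((a : ℕ) + 1))) v‖ +
      ‖∑ a : Fin 9, σ (transvection hjl.symm (c ^ ((a : ℕ) + 1))) v‖ ≤
      12 * Real.sqrt 2 * ‖v‖ := by
  have key : ∀ δ : ℝ, 0 < δ → ‖∑ a : Fin 9, σ (transvection hjl (c ^ ((a : ℕ) + 1))) v‖ +
      ‖∑ a : Fin 9, σ (transvection hjl.symm (c ^ ((a : ℕ) + 1))) v‖ ≤
      36 * δ + 12 * Real.sqrt 2 * ‖v‖ := by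
    intro δ hδ
    obtain ⟨r1, hr1, h1⟩ := exists_small hσ hij v (δ := δ / 2) (by positivity)
    obtain ⟨r2, hr2, h2⟩ := exists_small hσ hil v (δ := δ / 2) (by positivity)
    obtain ⟨r, hr⟩ : ∃ r, r = min r1 r2 := ⟨_, rfl⟩
    have hr0 : 0 < r := by rw [hr]; exact lt_min hr1 hr2
    obtain ⟨R, hR⟩ : ∃ R : ℕ → ℝ, R = fun m => r * ‖c‖ ^ m := ⟨_, rfl⟩
    have hRpos : ∀ m, 0 < R m := fun m => by rw [hR]; positivity
    have hRs : ∀ m, R (m + 1) = ‖c‖ * R m := fun m => by rw [hR]; ring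
    have hRm : Monotone R := monotone_nat_of_le_succ fun m => by
      rw [hRs]; nlinarith [hRpos m]
    have iXY : Inc (fun m => Ub (k := k) hij (R m)) (fun m => Ub hil (R m)) :=
      ⟨fun a b => Ub_cc hij hil _ _, fun a b hab => Ub_mono hil (hRm hab)⟩
    have iYX : Inc (fun m => Ub (k := k) hil (R (m + 1))) (fun m => Ub hij (R m)) :=
      ⟨fun a b => Ub_cc hil hij _ _, fun a b hab => Ub_mono hij (hRm hab)⟩
    -- small balls
    have hs0 : ‖v - pr σ (Ub hij (R 0)) (pr σ (Ub hil (R 0)) v)‖ ≤ δ := by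
      have hR0 : R 0 = r := by rw [hR]; simp
      have e1 : ‖v - pr σ (Ub hij (R 0)) v‖ ≤ δ / 2 := by
        refine norm_sub_pr_le_of hσ (UbS hk hij (hRpos 0).le) (by positivity) ?_
        rintro g ⟨x, hx, rfl⟩
        refine h1 x (hx.trans ?_)
        rw [hR0, hr]; exact min_le_left _ _
      have e2 : ‖v - pr σ (Ub hil (R 0)) v‖ ≤ δ / 2 := by
        refine norm_sub_pr_le_of hσ (UbS hk hil (hRpos 0).le) (by positivity) ?_
        rintro g ⟨x, hx, rfl⟩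
        refine h2 x (hx.trans ?_)
        rw [hR0, hr]; exact min_le_right _ _
      have e3 : v - pr σ (Ub hij (R 0)) (pr σ (Ub hil (R 0)) v) =
          (v - pr σ (Ub hij (R 0)) v) + pr σ (Ub hij (R 0)) (v - pr σ (Ub hil (R 0)) v) := by
        rw [map_sub]; abel
      rw [e3]
      refine (norm_add_le _ _).trans ?_
      have := (norm_pr_le (σ := σ) (Ub hij (R 0)) (v - pr σ (Ub hil (R 0)) v)).trans e2
      linarith
    -- large balls
    have hlim : Tendsto (fun n => ‖pr σ (Ub hij (R n) ∪ Ub hil (R n)) v‖) atTop (𝓝 0) := by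
      refine pr_tendsto_zero (fun a b hab => Set.union_subset_union
        (Ub_mono hij (hRm hab)) (Ub_mono hil (hRm hab))) fun η hη => hv η ?_
      refine mem_fixed hσ hij fun x => ?_
      obtain ⟨n, hn⟩ : ∃ n, ‖x‖ ≤ R n := by
        have : Tendsto R atTop atTop := by
          rw [hR]
          exact (tendsto_pow_atTop_atTop_of_one_lt hc).const_mul_atTop hr0
        exact (this.eventually_ge_atTop ‖x‖).exists
      exact hη n _ (Or.inl ⟨x, hn, rfl⟩)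
    obtain ⟨n, hn⟩ := ((Metric.tendsto_nhds.1 hlim) δ hδ).exists
    rw [dist_zero_right, norm_norm] at hn
    have hn' : ‖pr σ (Ub hij (R n)) (pr σ (Ub hil (R n)) v)‖ ≤ δ := by
      rw [(Ub_cc hij hil _ _).pr_pr hσ]; exact hn.le
    have hcard : Real.sqrt ((9 : ℕ) : ℝ) = 3 := by
      rw [show ((9 : ℕ) : ℝ) = 3 ^ 2 by norm_num]
      exact Real.sqrt_sq (by norm_num)
    have hmain := step_bound (X := fun m => Ub hij (R m)) (Y := fun m => Ub hil (R m)) hσ iXY iYX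
      (p := 9) (g := fun a => transvection hjl (c ^ ((a : ℕ) + 1)))
      (h := fun a => transvection hjl.symm (c ^ ((a : ℕ) + 1)))
      (fun a b hab => ping_tr hij hil hjl (q := ‖c‖) (fun m => (hRs m).le)
        (fun m => (hRpos m).le) (by linarith)
        (pow_sep hk hc fun h => hab (Fin.ext h.symm)))
      (fun a b hab => ping_tr hil hij hjl.symm (q := ‖c‖) (RP := fun m => R (m + 1)) (RQ := R)
        (fun m => by nlinarith [hRpos (m + 1)])
        (fun m => (hRpos (m + 1)).le) (by linarith)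
        (pow_sep hk hc fun h => hab (Fin.ext h.symm))) n hs0 hn'
    rw [hcard] at hmain
    push_cast at hmain
    linarith
  refine le_of_forall_pos_le_add fun ε hε => ?_
  have := key (ε / 36) (by positivity)
  linarith

/-- averages of words -/
theorem words {G : Type*} [Group G] [TopologicalSpace G] {S : Subgroup G} {ι₀ : Type} [Fintype ι₀]
    [Nonempty ι₀] {w₀ : ι₀ → G} (hw₀ : ∀ a, w₀ a ∈ S) {q : ℝ} (hq : 0 ≤ q) (m : ℕ) :
    ∃ (ι : Type) (_ : Fintype ι) (_ : Nonempty ι) (w : ι → G), (∀ a, w a ∈ S) ∧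
      ∀ (𝓗 : Type u) [NormedAddCommGroup 𝓗] [InnerProductSpace ℂ 𝓗] [CompleteSpace 𝓗]
        (σ : G →* (𝓗 →L[ℂ] 𝓗)), URep σ → (∀ v : 𝓗, (∀ η ∈ fixedSub σ, ⟪η, v⟫_ℂ = 0) →
      ‖((Fintype.card ι₀ : ℝ))⁻¹ • ∑ a, σ (w₀ a) v‖ ≤ q * ‖v‖) →
      ∀ v : 𝓗, (∀ η ∈ fixedSub σ, ⟪η, v⟫_ℂ = 0) →
        ‖((Fintype.card ι : ℝ))⁻¹ • ∑ a, σ (w a) v‖ ≤ q ^ m * ‖v‖ := by
  induction m with
  | zero =>
    refine ⟨Unit, inferInstance, inferInstance, fun _ => 1, fun _ => Subgroup.one_mem _, ?_⟩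
    intro 𝓗 _ _ _ σ hσ h₀ v _
    simp
  | succ m ih =>
    obtain ⟨ι, _, _, w, hw, hw'⟩ := ih
    refine ⟨ι₀ × ι, inferInstance, inferInstance, fun a => w₀ a.1 * w a.2,
      fun a => S.mul_mem (hw₀ _) (hw _), ?_⟩
    intro 𝓗 _ _ _ σ hσ h₀ v hv
    obtain ⟨u, hu⟩ : ∃ u, u = ((Fintype.card ι : ℝ))⁻¹ • ∑ a, σ (w a) v := ⟨_, rfl⟩
    have hou : ∀ η ∈ fixedSub σ, ⟪η, u⟫_ℂ = 0 := by
      intro η hη
      rw [hu, ← Complex.coe_smul, inner_smul_right, inner_sum]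
      rw [Finset.sum_eq_zero fun a _ => ?_, mul_zero]
      rw [hσ.inner_right, hη]
      exact hv η hη
    have hg : ∀ g, σ g u = ((Fintype.card ι : ℝ))⁻¹ • ∑ a, σ (g * w a) v := by
      intro g
      rw [hu, ← Complex.coe_smul, map_smul, Complex.coe_smul, map_sum]
      simp only [URep.mul_apply]
    have e : ((Fintype.card (ι₀ × ι) : ℝ))⁻¹ • ∑ a : ι₀ × ι, σ (w₀ a.1 * w a.2) v =
        ((Fintype.card ι₀ : ℝ))⁻¹ • ∑ a, σ (w₀ a) u := by
      have hcard : (Fintype.card (ι₀ × ι) : ℝ) = Fintype.card ι₀ * Fintype.card ι := by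
        rw [Fintype.card_prod]; simp
      simp only [hg]
      rw [hcard, mul_inv, mul_smul, Fintype.sum_prod_type, Finset.smul_sum]
    rw [e]
    refine (h₀ u hou).trans ?_
    rw [pow_succ', mul_assoc, hu]
    exact mul_le_mul_of_nonneg_left (hw' 𝓗 σ hσ h₀ v hv) hq

/-- **[DU-GAP]** `k` nonarchimedean, any characteristic: for every `e > 0` there are finitely many
elements of the block `SL_2(k)` at `{j, l}` whose average is an `e`-contraction on the complement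
of the fixed vectors, in every unitary representation. -/
theorem gl_gap_ultra (hk : IsUltrametricDist k) {i j l : Fin N} (hij : i ≠ j)
    (hil : i ≠ l) (hjl : j ≠ l) {e : ℝ} (he : 0 < e) :
    ∃ (p : ℕ) (_ : 0 < p) (w : Fin p → SpecialLinearGroup (Fin N) k),
      (∀ a, w a ∈ Subgroup.closure ({g | ∃ t : k, g = transvection hjl t} ∪
        {g | ∃ t : k, g = transvection hjl.symm t} : Set (SpecialLinearGroup (Fin N) k))) ∧
      ∀ (𝓗 : Type u) [NormedAddCommGroup 𝓗] [InnerProductSpace ℂ 𝓗] [CompleteSpace 𝓗]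
        (σ : SpecialLinearGroup (Fin N) k →* (𝓗 →L[ℂ] 𝓗)), URep σ →
        ∀ v : 𝓗, (∀ η ∈ fixedSub σ, ⟪η, v⟫_ℂ = 0) →
        ‖((p : ℝ))⁻¹ • ∑ a, σ (w a) v‖ ≤ e * ‖v‖ := by
  obtain ⟨c, hc⟩ := NormedField.exists_one_lt_norm k
  obtain ⟨q, hq⟩ : ∃ q : ℝ, q = 2 * Real.sqrt 2 / 3 := ⟨_, rfl⟩
  have hq0 : 0 ≤ q := by rw [hq]; positivity
  have hq1 : q < 1 := by
    have h2 : Real.sqrt 2 < 3 / 2 := by
      rw [Real.sqrt_lt' (by norm_num)]; norm_num
    rw [hq]; linarith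
  obtain ⟨S, hS⟩ : ∃ S : Subgroup (SpecialLinearGroup (Fin N) k),
    S = Subgroup.closure ({g | ∃ t : k, g = transvection hjl t} ∪
        {g | ∃ t : k, g = transvection hjl.symm t} : Set (SpecialLinearGroup (Fin N) k)) := ⟨_, rfl⟩
  rw [← hS]
  obtain ⟨m, hm⟩ := exists_pow_lt_of_lt_one he hq1
  obtain ⟨w₀, hw₀⟩ : ∃ w₀ : Fin 9 ⊕ Fin 9 → SpecialLinearGroup (Fin N) k, w₀ =
    Sum.elim (fun a : Fin 9 => transvection hjl (c ^ ((a : ℕ) + 1)))
      (fun a : Fin 9 => transvection hjl.symm (c ^ ((a : ℕ) + 1))) := ⟨_, rfl⟩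
  obtain ⟨ι, _, _, w, hw, hw'⟩ := words.{u} (S := S) (w₀ := w₀) (fun a => by
    rw [hw₀, hS]
    rcases a with a | a
    · exact Subgroup.subset_closure (Or.inl ⟨_, rfl⟩)
    · exact Subgroup.subset_closure (Or.inr ⟨_, rfl⟩)) hq0 m
  refine ⟨Fintype.card ι, Fintype.card_pos, fun a => w ((Fintype.equivFin ι).symm a),
    fun a => hw _, ?_⟩
  intro 𝓗 _ _ _ σ hσ v hv
  rw [Equiv.sum_comp (Fintype.equivFin ι).symm fun a => σ (w a) v]
  refine (hw' 𝓗 σ hσ (fun v hv => ?_) v hv).trans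
    (mul_le_mul_of_nonneg_right hm.le (norm_nonneg _))
  have h1 := step18 hk hσ hij hil hjl hc hv
  rw [norm_smul, Fintype.sum_sum_type, hw₀]
  simp only [Sum.elim_inl, Sum.elim_inr, Fintype.card_sum, Fintype.card_fin]
  refine (mul_le_mul_of_nonneg_left ((norm_add_le _ _).trans h1) (norm_nonneg _)).trans ?_
  rw [hq, Real.norm_of_nonneg (by positivity)]
  push_cast
  apply le_of_eq
  ring

end final

end Vale.Agent.P092.H252
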