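import Vale.Agent.P092.H820.Cpv

/-!
P092 (helper252), D-ULTRA: the bridge between unital *-homomorphisms on `C(X, ℂ)`, `X` compact and
totally disconnected, and projection valued measures on the clopen sets (`H820.Cpv`).
-/

set_option linter.all false

open TopologicalSpace ContinuousLinearMap

namespace Vale.Agent.P092.H252

open Vale.Agent.P092.H820

section chi

variable {X : Type*} [TopologicalSpace X]

open Classical in
/-- the characteristic function of a clopen set -/
noncomputable def chi (U : Clopens X) : C(X, ℂ) where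
  toFun x := if x ∈ U then 1 else 0
  continuous_toFun := by
    refine (IsLocallyConstant.continuous ?_)
    rw [IsLocallyConstant.iff_exists_open]
    intro x
    by_cases hx : x ∈ U
    · exact ⟨U, U.isClopen.isOpen, hx, fun y hy => by
        have hy' : y ∈ U := hy
        simp [hx, hy']⟩
    · exact ⟨(U : Set X)ᶜ, U.isClopen.isClosed.isOpen_compl, hx, fun y hy => by
        have hy' : y ∉ U := hy
        simp [hx, hy']⟩

theorem chi_of_mem {U : Clopens X} {x : X} (h : x ∈ U) : chi U x = 1 := by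
  simp [chi, h]

theorem chi_of_notMem {U : Clopens X} {x : X} (h : x ∉ U) : chi U x = 0 := by
  simp [chi, h]

theorem chi_inf (U V : Clopens X) : chi (U ⊓ V) = chi U * chi V := by
  ext x
  rw [ContinuousMap.mul_apply]
  by_cases h1 : x ∈ U
  · by_cases h2 : x ∈ V
    · rw [chi_of_mem h1, chi_of_mem h2, chi_of_mem (show x ∈ U ⊓ V from ⟨h1, h2⟩), mul_one]
    · rw [chi_of_notMem h2, chi_of_notMem (show x ∉ U ⊓ V from fun h => h2 h.2), mul_zero]
  · rw [chi_of_notMem h1, chi_of_notMem (show x ∉ U ⊓ V from fun h => h1 h.1), zero_mul]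

theorem chi_compl (U : Clopens X) : chi Uᶜ = 1 - chi U := by
  ext x
  rw [ContinuousMap.sub_apply, ContinuousMap.one_apply]
  by_cases h1 : x ∈ U
  · rw [chi_of_mem h1, chi_of_notMem (show x ∉ Uᶜ from fun h => h h1), sub_self]
  · rw [chi_of_notMem h1, chi_of_mem (show x ∈ Uᶜ from h1), sub_zero]

theorem chi_star (U : Clopens X) : star (chi U) = chi U := by
  ext x
  rw [ContinuousMap.star_apply]
  by_cases h1 : x ∈ U
  · rw [chi_of_mem h1, star_one]
  · rw [chi_of_notMem h1, star_zero]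

theorem chi_top : chi (⊤ : Clopens X) = 1 := by
  ext x
  rw [chi_of_mem (show x ∈ (⊤ : Clopens X) from trivial), ContinuousMap.one_apply]

/-- a function supported in `U` is not changed by the characteristic function -/
theorem mul_chi {U : Clopens X} {f : C(X, ℂ)} (h : tsupport f ⊆ U) : f * chi U = f := by
  ext x
  rw [ContinuousMap.mul_apply]
  by_cases h1 : x ∈ U
  · rw [chi_of_mem h1, mul_one]
  · rw [image_eq_zero_of_notMem_tsupport fun h2 => h1 (h h2), zero_mul]

theorem tsupport_chi (U : Clopens X) : tsupport (chi U) ⊆ U := by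
  refine closure_minimal (fun x hx => ?_) U.isClopen.isClosed
  by_contra h
  exact hx (chi_of_notMem h)

end chi

section dens

variable {X : Type*} [TopologicalSpace X] [CompactSpace X] [T2Space X] [TotallyDisconnectedSpace X]

/-- compactness on a clopen set -/
theorem cl_ind {A : Set X} (hA : IsCompact A) (p : Clopens X → Prop) (h0 : p ⊥)
    (hmono : ∀ U V, U ≤ V → p V → p U) (hsup : ∀ U V, p U → p V → p (U ⊔ V))
    (hloc : ∀ y ∈ A, ∃ U : Clopens X, y ∈ U ∧ p U) : ∃ V : Clopens X, A ⊆ V ∧ p V := by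
  refine hA.induction_on (p := fun S => ∃ V : Clopens X, S ⊆ V ∧ p V) ?_ ?_ ?_ ?_
  · exact ⟨⊥, Set.empty_subset _, h0⟩
  · rintro S T hST ⟨V, h2, h3⟩
    exact ⟨V, hST.trans h2, h3⟩
  · rintro S T ⟨V, h2, h3⟩ ⟨Z, g2, g3⟩
    exact ⟨V ⊔ Z, Set.union_subset_union h2 g2, hsup V Z h3 g3⟩
  · intro a ha
    obtain ⟨U, hU, h⟩ := hloc a ha
    exact ⟨U, mem_nhdsWithin_of_mem_nhds (U.isClopen.isOpen.mem_nhds hU), U, subset_rfl, h⟩

theorem clopen_nhd {S : Set X} {x : X} (h : S ∈ nhds x) : ∃ U : Clopens X, x ∈ U ∧ (U : Set X) ⊆ S := by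
  obtain ⟨V, hV, hxV, hVS⟩ := compact_exists_isClopen_in_isOpen (isOpen_interior (s := S))
    (mem_interior_iff_mem_nhds.2 h)
  exact ⟨⟨V, hV⟩, hxV, hVS.trans interior_subset⟩

variable (X) in
/-- step functions -/
noncomputable def stp : Submodule ℂ C(X, ℂ) := Submodule.span ℂ (Set.range chi)

omit [CompactSpace X] [T2Space X] [TotallyDisconnectedSpace X] in
theorem chi_mem_stp (U : Clopens X) : chi U ∈ stp X := Submodule.subset_span ⟨U, rfl⟩

omit [CompactSpace X] [T2Space X] [TotallyDisconnectedSpace X] in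
theorem mul_mem_stp (U : Clopens X) {g : C(X, ℂ)} (hg : g ∈ stp X) : chi U * g ∈ stp X := by
  unfold stp at hg
  induction hg using Submodule.span_induction with
  | mem x hx =>
    obtain ⟨V, rfl⟩ := hx
    rw [← chi_inf]
    exact chi_mem_stp _
  | zero => rw [mul_zero]; exact Submodule.zero_mem _
  | add x y _ _ hx hy => rw [mul_add]; exact Submodule.add_mem _ hx hy
  | smul a x _ hx => rw [mul_smul_comm]; exact Submodule.smul_mem _ a hx

/-- step functions are dense -/
theorem exists_stp (f : C(X, ℂ)) {ε : ℝ} (hε : 0 < ε) : ∃ g ∈ stp X, ‖f - g‖ ≤ ε := by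
  have key : ∃ V : Clopens X, (Set.univ : Set X) ⊆ V ∧ ∃ g ∈ stp X, ∀ x ∈ V, ‖f x - g x‖ ≤ ε := by
    refine cl_ind isCompact_univ (fun V => ∃ g ∈ stp X, ∀ x ∈ V, ‖f x - g x‖ ≤ ε) ?_ ?_ ?_ ?_
    · exact ⟨0, Submodule.zero_mem _, fun x hx => absurd hx id⟩
    · rintro U V hUV ⟨g, hg, h⟩
      exact ⟨g, hg, fun x hx => h x (hUV hx)⟩
    · rintro U V ⟨g, hg, h⟩ ⟨g', hg', h'⟩
      refine ⟨chi U * g + chi Uᶜ * g', Submodule.add_mem _ (mul_mem_stp _ hg)
        (mul_mem_stp _ hg'), fun x hx => ?_⟩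
      rw [ContinuousMap.add_apply, ContinuousMap.mul_apply, ContinuousMap.mul_apply]
      by_cases hxU : x ∈ U
      · rw [chi_of_mem hxU, chi_of_notMem (show x ∉ Uᶜ from fun h => h hxU), one_mul, zero_mul,
          add_zero]
        exact h x hxU
      · rw [chi_of_notMem hxU, chi_of_mem (show x ∈ Uᶜ from hxU), one_mul, zero_mul, zero_add]
        exact h' x (hx.resolve_left hxU)
    · intro y _
      have h1 : {x | ‖f x - f y‖ < ε} ∈ nhds y := by
        refine (isOpen_lt ((f.continuous.sub continuous_const).norm)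
          continuous_const).mem_nhds ?_
        show ‖f y - f y‖ < ε
        rw [sub_self, norm_zero]; exact hε
      obtain ⟨U, hyU, hU⟩ := clopen_nhd h1
      refine ⟨U, hyU, f y • chi ⊤, Submodule.smul_mem _ _ (chi_mem_stp _), fun x hx => ?_⟩
      rw [chi_top, ContinuousMap.smul_apply, ContinuousMap.one_apply, smul_eq_mul, mul_one]
      exact (hU hx).le
  obtain ⟨V, hV, g, hg, h⟩ := key
  refine ⟨g, hg, ?_⟩
  rw [ContinuousMap.norm_le _ hε.le]
  intro x
  rw [ContinuousMap.sub_apply]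
  exact h x (hV (Set.mem_univ x))

/-- continuous linear maps are determined by the characteristic functions -/
theorem ext_chi {Z : Type*} [NormedAddCommGroup Z] [NormedSpace ℂ Z] {F G : C(X, ℂ) →L[ℂ] Z}
    (h : ∀ U, F (chi U) = G (chi U)) (f : C(X, ℂ)) : F f = G f := by
  have h1 : ∀ g ∈ stp X, F g = G g := by
    intro g hg
    unfold stp at hg
    induction hg using Submodule.span_induction with
    | mem x hx => obtain ⟨V, rfl⟩ := hx; exact h V
    | zero => rw [map_zero, map_zero]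
    | add x y _ _ hx hy => rw [map_add, map_add, hx, hy]
    | smul a x _ hx => rw [map_smul, map_smul, hx]
  have hcl : IsClosed {f | F f = G f} := isClosed_eq F.continuous G.continuous
  have : f ∈ closure (stp X : Set C(X, ℂ)) := by
    rw [Metric.mem_closure_iff]
    intro ε hε
    obtain ⟨g, hg, hfg⟩ := exists_stp f (half_pos hε)
    refine ⟨g, hg, ?_⟩
    rw [dist_eq_norm]
    linarith
  exact closure_minimal (fun g hg => h1 g hg) hcl this

end dens

section hom

variable {X : Type*} [TopologicalSpace X] [CompactSpace X] {K : Type*} [NormedAddCommGroup K]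
  [InnerProductSpace ℂ K] [CompleteSpace K]

/-- the projection valued measure of a *-homomorphism -/
noncomputable def cpv (φ : C(X, ℂ) →⋆ₐ[ℂ] (K →L[ℂ] K)) (U : Clopens X) : K →L[ℂ] K := φ (chi U)

theorem cpv_spec (φ : C(X, ℂ) →⋆ₐ[ℂ] (K →L[ℂ] K)) : Cpv (cpv φ) where
  sa U := by
    unfold cpv
    rw [← map_star, chi_star]
  inf U V := by
    unfold cpv
    rw [chi_inf, map_mul]
  compl U := by
    unfold cpv
    rw [chi_compl, map_sub, map_one]

/-- a *-homomorphism as a continuous linear map -/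
noncomputable def toC (φ : C(X, ℂ) →⋆ₐ[ℂ] (K →L[ℂ] K)) : C(X, ℂ) →L[ℂ] (K →L[ℂ] K) :=
  LinearMap.mkContinuous φ.toAlgHom.toLinearMap 1 fun f => by
    rw [one_mul]
    exact NonUnitalStarAlgHom.norm_apply_le (φ : C(X, ℂ) →⋆ₙₐ[ℂ] (K →L[ℂ] K)) f

theorem toC_apply (φ : C(X, ℂ) →⋆ₐ[ℂ] (K →L[ℂ] K)) (f : C(X, ℂ)) : toC φ f = φ f := rfl

variable [T2Space X] [TotallyDisconnectedSpace X]

/-- commutation is tested on clopen sets -/
theorem comm_of_cpv {φ : C(X, ℂ) →⋆ₐ[ℂ] (K →L[ℂ] K)} {T : K →L[ℂ] K}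
    (h : ∀ U, T * cpv φ U = cpv φ U * T) (f : C(X, ℂ)) : T * φ f = φ f * T := by
  let F : C(X, ℂ) →L[ℂ] (K →L[ℂ] K) := (ContinuousLinearMap.mul ℂ (K →L[ℂ] K) T).comp (toC φ)
  let G : C(X, ℂ) →L[ℂ] (K →L[ℂ] K) :=
    ((ContinuousLinearMap.mul ℂ (K →L[ℂ] K)).flip T).comp (toC φ)
  exact ext_chi (F := F) (G := G) (fun U => h U) f

/-- agreement of vectors is tested on clopen sets -/
theorem eq_of_cpv {φ ψ : C(X, ℂ) →⋆ₐ[ℂ] (K →L[ℂ] K)} {ξ : K}
    (h : ∀ U, cpv φ U ξ = cpv ψ U ξ) (f : C(X, ℂ)) : φ f ξ = ψ f ξ := by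
  let F : C(X, ℂ) →L[ℂ] K := (ContinuousLinearMap.apply ℂ K ξ).comp (toC φ)
  let G : C(X, ℂ) →L[ℂ] K := (ContinuousLinearMap.apply ℂ K ξ).comp (toC ψ)
  exact ext_chi (F := F) (G := G) (fun U => h U) f

end hom

end Vale.Agent.P092.H252
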