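import Vale.Agent.P092.SD.Defs
import Vale.Agent.P092.H252.UBr
import Vale.Agent.P092.H375.USyn

/-!
P092 (helper252), D-ULTRA: over a nonarchimedean local field of any characteristic the structure
`SD.QP` (incidence, key, agreement) implies that all point calculi commute.
-/

set_option linter.all false

open TopologicalSpace ContinuousLinearMap Projectivization
open scoped LinearAlgebra.Projectivization Matrix

namespace Vale.Agent.P092.H252

open Vale.Agent.P092.H820 Vale.Agent.P092.SD

section geo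

variable {k : Type} [NontriviallyNormedField k]

theorem inc3_symm {x l : PP k} (h : (x, l) ∈ inc3 (k := k)) : (l, x) ∈ inc3 (k := k) := by
  obtain ⟨v, rfl⟩ := pj_surj x
  obtain ⟨w, rfl⟩ := pj_surj l
  have h' : v.1 ⬝ᵥ w.1 = 0 := h
  show w.1 ⬝ᵥ v.1 = 0
  rw [dotProduct_comm]; exact h'

/-- two different points on every line -/
theorem two_pts (l : PP k) : ∃ c c' : PP k, c ≠ c' ∧ (c, l) ∈ inc3 (k := k) ∧
    (c', l) ∈ inc3 (k := k) := by
  obtain ⟨w, rfl⟩ := pj_surj l
  obtain ⟨i, hi⟩ : ∃ i, w.1 i ≠ 0 := by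
    by_contra h
    push Not at h
    exact w.2 (funext h)
  -- vectors `w_i e_a - w_a e_i`
  have key : ∀ a b : Fin 3, a ≠ i → b ≠ i → a ≠ b → ∃ c c' : PP k, c ≠ c' ∧
      (c, pj k (Fin 3) w) ∈ inc3 (k := k) ∧ (c', pj k (Fin 3) w) ∈ inc3 (k := k) := by
    intro a b ha hb hab
    have hne : ∀ a, a ≠ i → (Pi.single a (w.1 i) - Pi.single i (w.1 a) : Fin 3 → k) ≠ 0 := by
      intro a ha h
      have := congrFun h a
      simp [ha] at this
      exact hi this
    have hin : ∀ a (ha : a ≠ i), (pj k (Fin 3) ⟨_, hne a ha⟩, pj k (Fin 3) w) ∈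
        inc3 (k := k) := by
      intro a ha
      show (Pi.single a (w.1 i) - Pi.single i (w.1 a) : Fin 3 → k) ⬝ᵥ w.1 = 0
      rw [sub_dotProduct, single_dotProduct, single_dotProduct]
      ring
    refine ⟨pj k (Fin 3) ⟨_, hne a ha⟩, pj k (Fin 3) ⟨_, hne b hb⟩, ?_, hin a ha, hin b hb⟩
    intro h
    obtain ⟨c, hc⟩ := (pj_eq _ _).1 h
    have := congrFun hc a
    simp [ha, hab, Units.smul_def] at this
    exact hi this.symm
  fin_cases i
  · exact key 1 2 (by decide) (by decide) (by decide)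
  · exact key 0 2 (by decide) (by decide) (by decide)
  · exact key 0 1 (by decide) (by decide) (by decide)

/-- locally constant functions are Lipschitz -/
theorem lip_chi [ProperSpace k] (U : Clopens (PP k)) : LipP (chi U) := by
  -- the unit sphere is compact and the preimage of `U` is clopen in it
  obtain ⟨S, hS⟩ : ∃ S : Set (Fin 3 → k), S = Metric.sphere 0 1 := ⟨_, rfl⟩
  have hSc : IsCompact S := by rw [hS]; exact isCompact_sphere _ _
  have hne : ∀ v ∈ S, v ≠ 0 := by
    rintro v hv rfl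
    rw [hS] at hv
    simp at hv
  let F : S → ℂ := fun v => chi U (pj k (Fin 3) ⟨v.1, hne v.1 v.2⟩)
  have hF : Continuous F := (chi U).continuous.comp
    (pj_continuous.comp (Continuous.subtype_mk continuous_subtype_val _))
  haveI : CompactSpace S := isCompact_iff_compactSpace.1 hSc
  have huc : UniformContinuous F := CompactSpace.uniformContinuous_of_continuous hF
  obtain ⟨δ, hδ, h⟩ := Metric.uniformContinuous_iff.1 huc 1 one_pos
  refine ⟨1 / δ, fun v w hv hw hv1 hw1 => ?_⟩
  have hvS : v ∈ S := by rw [hS]; simpa using hv1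
  have hwS : w ∈ S := by rw [hS]; simpa using hw1
  by_cases hd : ‖v - w‖ < δ
  · have h1 := h (a := ⟨v, hvS⟩) (b := ⟨w, hwS⟩) (by
      rw [Subtype.dist_eq, dist_eq_norm]; exact hd)
    have e1 : F ⟨v, hvS⟩ = chi U (pt k v hv) := rfl
    have e2 : F ⟨w, hwS⟩ = chi U (pt k w hw) := rfl
    rw [e1, e2, dist_eq_norm] at h1
    have h2 : ‖chi U (pt k v hv) - chi U (pt k w hw)‖ = 0 := by
      by_cases m1 : pt k v hv ∈ U
      · by_cases m2 : pt k w hw ∈ U
        · rw [chi_of_mem m1, chi_of_mem m2, sub_self, norm_zero]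
        · rw [chi_of_mem m1, chi_of_notMem m2] at h1
          norm_num at h1
      · by_cases m2 : pt k w hw ∈ U
        · rw [chi_of_notMem m1, chi_of_mem m2] at h1
          norm_num at h1
        · rw [chi_of_notMem m1, chi_of_notMem m2, sub_self, norm_zero]
    rw [h2]
    positivity
  · push Not at hd
    have h2 : ‖chi U (pt k v hv) - chi U (pt k w hw)‖ ≤ 1 := by
      by_cases m1 : pt k v hv ∈ U
      · by_cases m2 : pt k w hw ∈ U
        · rw [chi_of_mem m1, chi_of_mem m2, sub_self, norm_zero]; exact zero_le_one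
        · rw [chi_of_mem m1, chi_of_notMem m2, sub_zero, norm_one]
      · by_cases m2 : pt k w hw ∈ U
        · rw [chi_of_notMem m1, chi_of_mem m2, zero_sub, norm_neg, norm_one]
        · rw [chi_of_notMem m1, chi_of_notMem m2, sub_self, norm_zero]; exact zero_le_one
    refine h2.trans ?_
    rw [one_div, inv_mul_eq_div, le_div_iff₀ hδ, one_mul]
    exact hd

end geo

section main

variable {k : Type} [NontriviallyNormedField k] [ProperSpace k] [IsUltrametricDist k]
  {K : Type} [NormedAddCommGroup K] [InnerProductSpace ℂ K] [CompleteSpace K]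
  {E F : PP k → (CP k →⋆ₐ[ℂ] (K →L[ℂ] K))}

theorem ninc_tsupport {U A : Clopens (PP k)}
    (h : H375.Ultra.NI (inc3 (k := k)) U A) : NInc (tsupport (chi U)) (tsupport (chi A)) :=
  fun x hx l hl => h x (tsupport_chi U hx) l (tsupport_chi A hl)

theorem ag_of {φ ψ : CP k →⋆ₐ[ℂ] (K →L[ℂ] K)} (hag : ∀ ξ, (∀ f, φ f ξ = ψ f ξ) → ξ = 0)
    (T : K →L[ℂ] K) (h : ∀ U, cpv φ U * T = cpv ψ U * T) : T = 0 := by
  refine ContinuousLinearMap.ext fun η => ?_
  refine hag (T η) fun f => eq_of_cpv (fun U => ?_) f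
  exact congrArg (fun S : K →L[ℂ] K => S η) (h U)

/-- The point and line calculi form a family in the sense of helper375. -/
theorem fam_of (h : QP E F) : H375.Ultra.Fam (inc3 (k := k)) (fun a l : PP k =>
    (a, l) ∈ inc3 (k := k)) (fun a => cpv (E a)) (fun l => cpv (F l)) where
  cl := inc3_closed
  uniq x x' b b' hne h1 h2 h3 h4 :=
    inc3_uniq b b' x x' hne (inc3_symm h1) (inc3_symm h2) (inc3_symm h3) (inc3_symm h4)
  hP b := cpv_spec _
  hQ m := cpv_spec _
  inc c m hcm U A hUA := h.inc c m hcm _ _ (ninc_tsupport hUA)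
  key b c m hb hc U Z A hd hUA := by
    refine h.key c b m hc hb _ _ _ (lip_chi Z) (ninc_tsupport hUA) ?_
    refine Set.disjoint_of_subset (tsupport_chi U) (tsupport_chi Z) ?_
    rw [Set.disjoint_left]
    intro x hx hx'
    have : x ∈ U ⊓ Z := ⟨hx, hx'⟩
    rw [hd.eq_bot] at this
    exact this
  agP c c' hne T hT := ag_of (h.agrE c c' hne) T hT
  agQ m m' hne T hT := ag_of (h.agrF m m' hne) T hT
  two m := two_pts m
  two' b := by
    obtain ⟨c, c', hne, h1, h2⟩ := two_pts b
    exact ⟨c, c', hne, inc3_symm h1, inc3_symm h2⟩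

/-- **Opposite pairs commute** (nonarchimedean local fields, any characteristic). -/
theorem opp_comm_ultra (h : QP E F) (a l : PP k) (f g : CP k) : Commute (E a f) (F l g) := by
  have h1 : ∀ U A, cpv (E a) U * cpv (F l) A = cpv (F l) A * cpv (E a) U :=
    fun U A => (fam_of h).opp a l U A
  have h2 : ∀ U, cpv (E a) U * F l g = F l g * cpv (E a) U := fun U =>
    comm_of_cpv (fun A => h1 U A) g
  have h3 := comm_of_cpv (φ := E a) (T := F l g) (fun U => (h2 U).symm) f
  exact h3.symm

/-- **All points commute** (nonarchimedean local fields, any characteristic). -/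
theorem points_comm_ultra (h : QP E F) (a b : PP k) (f g : CP k) :
    Commute (E a f) (E b g) := by
  have h1 : ∀ U U', cpv (E a) U * cpv (E b) U' = cpv (E b) U' * cpv (E a) U :=
    fun U U' => (fam_of h).points_comm a b U U'
  have h2 : ∀ U, cpv (E a) U * E b g = E b g * cpv (E a) U := fun U =>
    comm_of_cpv (fun A => h1 U A) g
  have h3 := comm_of_cpv (φ := E a) (T := E b g) (fun U => (h2 U).symm) f
  exact h3.symm

/-- What the counting argument has to deliver over a nonarchimedean field: the vanishing on clopen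
sets; the commutation of incident pairs is then automatic. -/
theorem qp_of_clopen
    (inc : ∀ a l, (a, l) ∈ inc3 (k := k) → ∀ U A : Clopens (PP k),
      H375.Ultra.NI (inc3 (k := k)) U A → cpv (E a) U * cpv (F l) A = 0)
    (agrE : ∀ a b, a ≠ b → ∀ ξ, (∀ f, E a f ξ = E b f ξ) → ξ = 0)
    (agrF : ∀ a b, a ≠ b → ∀ ξ, (∀ f, F a f ξ = F b f ξ) → ξ = 0)
    (key : ∀ a b l, (a, l) ∈ inc3 (k := k) → (b, l) ∉ inc3 (k := k) →
      ∀ U V A : Clopens (PP k), Disjoint U V → H375.Ultra.NI (inc3 (k := k)) U A →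
        cpv (E a) U * cpv (E b) V * cpv (F l) A = 0) : QP E F := by
  -- separation of compact sets by clopens
  have sep : ∀ u h : CP k, NInc (tsupport u) (tsupport h) → ∃ U A : Clopens (PP k),
      tsupport u ⊆ U ∧ tsupport h ⊆ A ∧ H375.Ultra.NI (inc3 (k := k)) U A := by
    intro u h hn
    have hu : IsCompact (tsupport u) := (isClosed_tsupport u).isCompact
    have hh : IsCompact (tsupport h) := (isClosed_tsupport h).isCompact
    -- for a point `x` a clopen neighbourhood and a clopen set of lines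
    have h1 : ∀ x ∈ tsupport u, ∃ U : Clopens (PP k), x ∈ U ∧ ∃ A : Clopens (PP k),
        tsupport h ⊆ A ∧ H375.Ultra.NI (inc3 (k := k)) U A := by
      intro x hx
      obtain ⟨A, hA, U, hxU, hUA⟩ := cl_ind hh (fun A => ∃ U : Clopens (PP k), x ∈ U ∧
          H375.Ultra.NI (inc3 (k := k)) U A) ⟨⊤, trivial, fun _ _ y hy => absurd hy id⟩
        (fun A B hAB ⟨U, hU, h⟩ => ⟨U, hU, h.mono le_rfl hAB⟩)
        (fun A B ⟨U, hU, h⟩ ⟨V, hV, h'⟩ => ⟨U ⊓ V, ⟨hU, hV⟩, by
          rintro z hz y (hy | hy)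
          · exact h z hz.1 y hy
          · exact h' z hz.2 y hy⟩)
        (fun l hl => by
          have h2 : (inc3 (k := k))ᶜ ∈ nhds (x, l) :=
            inc3_closed.isOpen_compl.mem_nhds (hn x hx l hl)
          rw [nhds_prod_eq, Filter.mem_prod_iff] at h2
          obtain ⟨S, hS, T, hT, hST⟩ := h2
          obtain ⟨U, hU, hUS⟩ := clopen_nhd hS
          obtain ⟨V, hV, hVT⟩ := clopen_nhd hT
          exact ⟨V, hV, U, hU, fun a ha b hb hab => hST ⟨hUS ha, hVT hb⟩ hab⟩)
      exact ⟨U, hxU, A, hA, hUA⟩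
    obtain ⟨U, hU, A, hA, hUA⟩ := cl_ind hu (fun U => ∃ A : Clopens (PP k), tsupport h ⊆ A ∧
        H375.Ultra.NI (inc3 (k := k)) U A)
      ⟨⊤, fun _ _ => trivial, fun y hy => absurd hy id⟩
      (fun U V hUV ⟨A, hA, h⟩ => ⟨A, hA, h.mono hUV le_rfl⟩)
      (fun U V ⟨A, hA, h⟩ ⟨B, hB, h'⟩ => ⟨A ⊓ B, fun y hy => ⟨hA hy, hB hy⟩, by
        rintro z (hz | hz) y hy
        · exact h z hz y hy.1
        · exact h' z hz y hy.2⟩)
      (fun x hx => by
        obtain ⟨U, hxU, A, hA, hUA⟩ := h1 x hx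
        exact ⟨U, hxU, A, hA, hUA⟩)
    exact ⟨U, A, hU, hA, hUA⟩
  have hinc : ∀ a l, (a, l) ∈ inc3 (k := k) → Supp (E a) (F l) := by
    intro a l hal u h hn
    obtain ⟨U, A, hU, hA, hUA⟩ := sep u h hn
    have e1 : E a u = E a u * cpv (E a) U := by
      unfold cpv
      rw [← map_mul, mul_chi hU]
    have e2 : F l h = cpv (F l) A * F l h := by
      unfold cpv
      rw [← map_mul, mul_comm, mul_chi hA]
    rw [e1, e2, mul_assoc, ← mul_assoc (cpv (E a) U), inc a l hal U A hUA, zero_mul, mul_zero]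
  refine ⟨hinc, ?_, agrE, agrF, ?_⟩
  · intro a l hal f h
    have h1 : ∀ U A, cpv (E a) U * cpv (F l) A = cpv (F l) A * cpv (E a) U :=
      plane_comm (cpv_spec (E a)) (cpv_spec (F l)) fun A B hAB =>
        inc a l hal A B fun x hx y hy => hAB x hx y hy
    have h2 : ∀ U, cpv (E a) U * F l h = F l h * cpv (E a) U := fun U =>
      comm_of_cpv (fun A => h1 U A) h
    exact (comm_of_cpv (φ := E a) (T := F l h) (fun U => (h2 U).symm) f).symm
  · intro a b l hal hbl u f h _ hn hd
    obtain ⟨U, A, hU, hA, hUA⟩ := sep u h hn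
    -- separate `tsupport u` and `tsupport f`
    obtain ⟨V, hV, hVd⟩ : ∃ V : Clopens (PP k), tsupport f ⊆ V ∧
        Disjoint (V : Set (PP k)) (tsupport u) := by
      obtain ⟨V, hV, hVd⟩ := cl_ind (isClosed_tsupport f).isCompact
        (fun V => Disjoint (V : Set (PP k)) (tsupport u)) (Set.disjoint_left.2 fun y hy => absurd hy id)
        (fun V W hVW h => h.mono_left hVW)
        (fun V W h h' => by
          rw [Set.disjoint_left] at h h' ⊢
          rintro z (hz | hz)
          · exact h hz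
          · exact h' hz)
        (fun x hx => by
          have h2 : (tsupport u)ᶜ ∈ nhds x := (isClosed_tsupport u).isOpen_compl.mem_nhds
            fun h3 => Set.disjoint_left.1 hd h3 hx
          obtain ⟨V, hV, hVS⟩ := clopen_nhd h2
          exact ⟨V, hV, Set.disjoint_left.2 fun z hz hz' => hVS hz hz'⟩)
      exact ⟨V, hV, hVd⟩
    have hU' : tsupport u ⊆ ((U ⊓ Vᶜ : Clopens (PP k)) : Set (PP k)) := fun x hx =>
      ⟨hU hx, fun h => Set.disjoint_left.1 hVd h hx⟩
    have e1 : E a u = E a u * cpv (E a) (U ⊓ Vᶜ) := by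
      unfold cpv
      rw [← map_mul, mul_chi hU']
    have e2 : F l h = cpv (F l) A * F l h := by
      unfold cpv
      rw [← map_mul, mul_comm, mul_chi hA]
    have e3 : E b f = E b f * cpv (E b) V := by
      unfold cpv
      rw [← map_mul, mul_chi hV]
    have e3' : E b f = cpv (E b) V * E b f := by
      unfold cpv
      rw [← map_mul, mul_comm, mul_chi hV]
    -- the vanishing with `χ_V` replaced by `f`
    have hk : cpv (E a) (U ⊓ Vᶜ) * E b f * cpv (F l) A = 0 := by
      let F1 : C(PP k, ℂ) →L[ℂ] (K →L[ℂ] K) :=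
        ((ContinuousLinearMap.mul ℂ (K →L[ℂ] K)).flip (cpv (F l) A)).comp
          ((ContinuousLinearMap.mul ℂ (K →L[ℂ] K) (cpv (E a) (U ⊓ Vᶜ))).comp
            ((toC (E b)).comp (ContinuousLinearMap.mul ℂ C(PP k, ℂ) (chi V))))
      have h0 : F1 f = (0 : C(PP k, ℂ) →L[ℂ] (K →L[ℂ] K)) f := ext_chi (fun W => by
        show cpv (E a) (U ⊓ Vᶜ) * E b (chi V * chi W) * cpv (F l) A = 0
        rw [← chi_inf]
        refine key a b l hal hbl _ _ _ ?_ (hUA.mono inf_le_left le_rfl)
        exact (disjoint_compl_left (a := V)).mono inf_le_right inf_le_left) f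
      have h1 : cpv (E a) (U ⊓ Vᶜ) * E b (chi V * f) * cpv (F l) A = 0 := h0
      rwa [mul_comm, mul_chi hV] at h1
    rw [e1, e2]
    calc E a u * cpv (E a) (U ⊓ Vᶜ) * E b f * (cpv (F l) A * F l h) =
        E a u * (cpv (E a) (U ⊓ Vᶜ) * E b f * cpv (F l) A) * F l h := by noncomm_ring
      _ = 0 := by rw [hk, mul_zero, zero_mul]

end main

end Vale.Agent.P092.H252
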