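import Vale.Agent.P092.SD.Blocks
import Vale.Agent.P092.H252.UQP

/-!
P092 (helper252), D-ULTRA: `SD.I2Stmt k`, `SD.AllStmt k` for nonarchimedean local fields `k` of any
characteristic, and the reduction of `SD.I1Stmt k`, `SD.KeyStmt k` to clopen sets.
-/

set_option linter.all false

open TopologicalSpace ContinuousLinearMap Projectivization
open scoped LinearAlgebra.Projectivization Matrix

namespace Vale.Agent.P092.H252

open Vale.Agent.P092.H820 Vale.Agent.P092.SD

section sep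

variable {k : Type} [NontriviallyNormedField k] [ProperSpace k] [IsUltrametricDist k]

/-- separation of non incident compact sets by clopen sets -/
theorem sep_clopen {S T : Set (PP k)} (hS : IsCompact S) (hT : IsCompact T) (hn : NInc S T) :
    ∃ U A : Clopens (PP k), S ⊆ U ∧ T ⊆ A ∧ H375.Ultra.NI (inc3 (k := k)) U A := by
  have h1 : ∀ x ∈ S, ∃ U : Clopens (PP k), x ∈ U ∧ ∃ A : Clopens (PP k),
      T ⊆ A ∧ H375.Ultra.NI (inc3 (k := k)) U A := by
    intro x hx
    obtain ⟨A, hA, U, hxU, hUA⟩ := cl_ind hT (fun A => ∃ U : Clopens (PP k), x ∈ U ∧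
        H375.Ultra.NI (inc3 (k := k)) U A) ⟨⊤, trivial, fun _ _ y hy => absurd hy id⟩
      (fun A B hAB ⟨U, hU, h⟩ => ⟨U, hU, h.mono le_rfl hAB⟩)
      (fun A B ⟨U, hU, h⟩ ⟨V, hV, h'⟩ => ⟨U ⊓ V, ⟨hU, hV⟩, by
        rintro z hz y (hy | hy)
        · exact h z hz.1 y hy
        · exact h' z hz.2 y hy⟩)
      (fun l hl => by
        have h2 : (inc3 (k := k))ᶜ ∈ nhds (x, l) :=
          inc3_closed.isOpen_compl.mem_nhds (hn x hx l hl)
        rw [nhds_prod_eq, Filter.mem_prod_iff] at h2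
        obtain ⟨S, hS, T, hT, hST⟩ := h2
        obtain ⟨U, hU, hUS⟩ := clopen_nhd hS
        obtain ⟨V, hV, hVT⟩ := clopen_nhd hT
        exact ⟨V, hV, U, hU, fun a ha b hb hab => hST ⟨hUS ha, hVT hb⟩ hab⟩)
    exact ⟨U, hxU, A, hA, hUA⟩
  obtain ⟨U, hU, A, hA, hUA⟩ := cl_ind hS (fun U => ∃ A : Clopens (PP k), T ⊆ A ∧
      H375.Ultra.NI (inc3 (k := k)) U A)
    ⟨⊤, fun _ _ => trivial, fun y hy => absurd hy id⟩
    (fun U V hUV ⟨A, hA, h⟩ => ⟨A, hA, h.mono hUV le_rfl⟩)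
    (fun U V ⟨A, hA, h⟩ ⟨B, hB, h'⟩ => ⟨A ⊓ B, fun y hy => ⟨hA hy, hB hy⟩, by
      rintro z (hz | hz) y hy
      · exact h z hz y hy.1
      · exact h' z hz y hy.2⟩)
    (fun x hx => by
      obtain ⟨U, hxU, A, hA, hUA⟩ := h1 x hx
      exact ⟨U, hxU, A, hA, hUA⟩)
  exact ⟨U, A, hU, hA, hUA⟩

theorem sep_disj {S T : Set (PP k)} (hS : IsCompact S) (hT : IsClosed T) (hd : Disjoint T S) :
    ∃ V : Clopens (PP k), S ⊆ V ∧ Disjoint (V : Set (PP k)) T :=
  cl_ind hS (fun V => Disjoint (V : Set (PP k)) T) (Set.disjoint_left.2 fun y hy => absurd hy id)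
    (fun V W hVW h => h.mono_left hVW)
    (fun V W h h' => by
      rw [Set.disjoint_left] at h h' ⊢
      rintro z (hz | hz)
      · exact h hz
      · exact h' hz)
    (fun x hx => by
      have h2 : Tᶜ ∈ nhds x := hT.isOpen_compl.mem_nhds fun h3 => Set.disjoint_left.1 hd h3 hx
      obtain ⟨V, hV, hVS⟩ := clopen_nhd h2
      exact ⟨V, hV, Set.disjoint_left.2 fun z hz hz' => hVS hz hz'⟩)

end sep

section main

variable {k : Type} [NontriviallyNormedField k] [ProperSpace k] [IsUltrametricDist k]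
  {K : Type} [NormedAddCommGroup K] [InnerProductSpace ℂ K] [CompleteSpace K]

/-- `Supp` is tested on clopen sets. -/
theorem supp_iff {β lm : CP k →⋆ₐ[ℂ] (K →L[ℂ] K)} : Supp β lm ↔ ∀ U A : Clopens (PP k),
    H375.Ultra.NI (inc3 (k := k)) U A → cpv β U * cpv lm A = 0 := by
  constructor
  · intro h U A hUA
    exact h _ _ (ninc_tsupport hUA)
  · intro inc u h hn
    obtain ⟨U, A, hU, hA, hUA⟩ := sep_clopen (isClosed_tsupport u).isCompact
      (isClosed_tsupport h).isCompact hn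
    have e1 : β u = β u * cpv β U := by
      unfold cpv
      rw [← map_mul, mul_chi hU]
    have e2 : lm h = cpv lm A * lm h := by
      unfold cpv
      rw [← map_mul, mul_comm, mul_chi hA]
    rw [e1, e2, mul_assoc, ← mul_assoc (cpv β U), inc U A hUA, zero_mul, mul_zero]

/-- commutation is tested on clopen sets (two calculi) -/
theorem commute_of_cpv {β lm : CP k →⋆ₐ[ℂ] (K →L[ℂ] K)}
    (h1 : ∀ U A, cpv β U * cpv lm A = cpv lm A * cpv β U) (f h : CP k) :
    Commute (β f) (lm h) := by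
  have h2 : ∀ U, cpv β U * lm h = lm h * cpv β U := fun U => comm_of_cpv (fun A => h1 U A) h
  exact (comm_of_cpv (φ := β) (T := lm h) (fun U => (h2 U).symm) f).symm

/-- the key vanishing is tested on clopen sets -/
theorem key_of_clopen {α β lm : CP k →⋆ₐ[ℂ] (K →L[ℂ] K)}
    (key : ∀ U V A : Clopens (PP k), Disjoint U V → H375.Ultra.NI (inc3 (k := k)) U A →
        cpv α U * cpv β V * cpv lm A = 0) (u f h : CP k)
    (hn : NInc (tsupport u) (tsupport h)) (hd : Disjoint (tsupport u) (tsupport f)) :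
    α u * β f * lm h = 0 := by
  obtain ⟨U, A, hU, hA, hUA⟩ := sep_clopen (isClosed_tsupport u).isCompact
    (isClosed_tsupport h).isCompact hn
  obtain ⟨V, hV, hVd⟩ := sep_disj (isClosed_tsupport f).isCompact (isClosed_tsupport u) hd
  have hU' : tsupport u ⊆ ((U ⊓ Vᶜ : Clopens (PP k)) : Set (PP k)) := fun x hx =>
    ⟨hU hx, fun h => Set.disjoint_left.1 hVd h hx⟩
  have e1 : α u = α u * cpv α (U ⊓ Vᶜ) := by
    unfold cpv
    rw [← map_mul, mul_chi hU']
  have e2 : lm h = cpv lm A * lm h := by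
    unfold cpv
    rw [← map_mul, mul_comm, mul_chi hA]
  have hk : cpv α (U ⊓ Vᶜ) * β f * cpv lm A = 0 := by
    let F1 : C(PP k, ℂ) →L[ℂ] (K →L[ℂ] K) :=
      ((ContinuousLinearMap.mul ℂ (K →L[ℂ] K)).flip (cpv lm A)).comp
        ((ContinuousLinearMap.mul ℂ (K →L[ℂ] K) (cpv α (U ⊓ Vᶜ))).comp
          ((toC β).comp (ContinuousLinearMap.mul ℂ C(PP k, ℂ) (chi V))))
    have h0 : F1 f = (0 : C(PP k, ℂ) →L[ℂ] (K →L[ℂ] K)) f := ext_chi (fun W => by
      show cpv α (U ⊓ Vᶜ) * β (chi V * chi W) * cpv lm A = 0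
      rw [← chi_inf]
      refine key _ _ _ ?_ (hUA.mono inf_le_left le_rfl)
      exact (disjoint_compl_left (a := V)).mono inf_le_right inf_le_left) f
    have h1 : cpv α (U ⊓ Vᶜ) * β (chi V * f) * cpv lm A = 0 := h0
    rwa [mul_comm, mul_chi hV] at h1
  rw [e1, e2]
  calc α u * cpv α (U ⊓ Vᶜ) * β f * (cpv lm A * lm h) =
      α u * (cpv α (U ⊓ Vᶜ) * β f * cpv lm A) * lm h := by noncomm_ring
    _ = 0 := by rw [hk, mul_zero, zero_mul]

variable (k) in
/-- **[D-I2] over a nonarchimedean local field.** -/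
theorem i2Stmt_ultra : I2Stmt k := by
  intro K _ _ _ β lm h f g
  refine commute_of_cpv ?_ f g
  exact plane_comm (cpv_spec β) (cpv_spec lm) fun A B hAB =>
    supp_iff.1 h A B fun x hx y hy => hAB x hx y hy

/-- the dual family -/
theorem fam_dual {E F : PP k → (CP k →⋆ₐ[ℂ] (K →L[ℂ] K))} (h : QP E F) :
    H375.Ultra.Fam (inc3 (k := k)) (fun l a : PP k => (l, a) ∈ inc3 (k := k))
      (fun l => cpv (F l)) (fun a => cpv (E a)) where
  cl := inc3_closed
  uniq x x' b b' hne h1 h2 h3 h4 :=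
    inc3_uniq b b' x x' hne (inc3_symm h1) (inc3_symm h2) (inc3_symm h3) (inc3_symm h4)
  hP b := cpv_spec _
  hQ m := cpv_spec _
  inc l a hla U A hUA := by
    rw [← (fam_of h).opp a l A U]
    exact (fam_of h).inc a l (inc3_symm hla) A U fun x hx y hy hxy =>
      hUA y hy x hx (inc3_symm hxy)
  key b c m hb hc U Z A hd hUA := by
    have e1 : cpv (F b) Z * cpv (E m) A = cpv (E m) A * cpv (F b) Z :=
      ((fam_of h).opp m b A Z).symm
    have e2 : cpv (F c) U * cpv (E m) A = 0 := by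
      rw [← (fam_of h).opp m c A U]
      exact (fam_of h).inc m c (inc3_symm hc) A U fun x hx y hy hxy =>
        hUA y hy x hx (inc3_symm hxy)
    rw [mul_assoc, e1, ← mul_assoc, e2, zero_mul]
  agP c c' hne T hT := ag_of (h.agrF c c' hne) T hT
  agQ m m' hne T hT := ag_of (h.agrE m m' hne) T hT
  two m := two_pts m
  two' b := by
    obtain ⟨c, c', hne, h1, h2⟩ := two_pts b
    exact ⟨c, c', hne, inc3_symm h1, inc3_symm h2⟩

variable (k) in
/-- **[D-OPP] + [D-ALL] over a nonarchimedean local field.** -/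
theorem allStmt_ultra : AllStmt k := by
  intro K _ _ _ E F h
  exact ⟨points_comm_ultra h, opp_comm_ultra h, fun l l' f g =>
    commute_of_cpv (fun U U' => (fam_dual h).points_comm l l' U U') f g⟩

variable (k) in
/-- The clopen form of [D-I1]. -/
def I1U [MeasurableSpace k] (μ : MeasureTheory.Measure k) : Prop :=
  ∀ {Γ K : Type} [Group Γ] [NormedAddCommGroup K] [InnerProductSpace ℂ K] [CompleteSpace K]
    (w : kˣ) (π : G3 k →* (K →L[ℂ] K)) (lam : Γ →* (K →L[ℂ] K)) (W : Set (K →L[ℂ] K)) (Ω : K)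
    (m : Set Γ → (K →L[ℂ] K)) (q : Γ →* G3 k) (E F : PP k → (CP k →⋆ₐ[ℂ] (K →L[ℂ] K))),
    LegS μ w π lam W Ω m q E F → ∀ a l, (a, l) ∈ inc3 (k := k) → ∀ U A : Clopens (PP k),
      H375.Ultra.NI (inc3 (k := k)) U A → cpv (E a) U * cpv (F l) A = 0

variable (k) in
/-- The clopen form of [D-KEY]. -/
def KeyU [MeasurableSpace k] (μ : MeasureTheory.Measure k) : Prop :=
  ∀ {Γ K : Type} [Group Γ] [NormedAddCommGroup K] [InnerProductSpace ℂ K] [CompleteSpace K]
    (w : kˣ) (π : G3 k →* (K →L[ℂ] K)) (lam : Γ →* (K →L[ℂ] K)) (W : Set (K →L[ℂ] K)) (Ω : K)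
    (m : Set Γ → (K →L[ℂ] K)) (q : Γ →* G3 k) (E F : PP k → (CP k →⋆ₐ[ℂ] (K →L[ℂ] K))),
    LegS μ w π lam W Ω m q E F →
    (∀ a l, (a, l) ∈ inc3 (k := k) → Supp (E a) (F l)) →
    (∀ a l, (a, l) ∈ inc3 (k := k) → ∀ f h, Commute (E a f) (F l h)) →
    ∀ a b l, (a, l) ∈ inc3 (k := k) → (b, l) ∉ inc3 (k := k) → ∀ U V A : Clopens (PP k),
      Disjoint U V → H375.Ultra.NI (inc3 (k := k)) U A →
      cpv (E a) U * cpv (E b) V * cpv (F l) A = 0

variable [MeasurableSpace k] {μ : MeasureTheory.Measure k}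

theorem i1Stmt_of_clopen (h : I1U k μ) : I1Stmt k μ := by
  intro Γ K _ _ _ _ w π lam W Ω m q E F hL a l hal
  exact supp_iff.2 (h w π lam W Ω m q E F hL a l hal)

theorem keyStmt_of_clopen (h : KeyU k μ) : KeyStmt k μ := by
  intro Γ K _ _ _ _ w π lam W Ω m q E F hL i1 i2 a b l hal hbl u f g _ hn hd
  exact key_of_clopen (h w π lam W Ω m q E F hL i1 i2 a b l hal hbl) u f g hn hd

/-- **The first half over a nonarchimedean local field**: only the clopen forms of the two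
counting statements are left. -/
theorem legComm_ultra (h1 : I1U k μ) (h3 : KeyU k μ) : LegComm k μ :=
  legComm_of (i1Stmt_of_clopen h1) (i2Stmt_ultra k) (keyStmt_of_clopen h3) (allStmt_ultra k)

end main

end Vale.Agent.P092.H252
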