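import Vale.Agent.P092.H87.URed2
import Vale.Agent.P092.H68.Key
import Vale.Agent.P092.H252.UAll
import Vale.Agent.P092.H790.CT2

/-!
P092, D-ULTRA, block [U2] (helper252, text of the two counting steps by helper87): over a
nonarchimedean local field of any characteristic, one leg `SD.LegS μ` with the counting principle
`EMZ` gives `SD.QP`, and everything commutes: `SD.LegComm k μ`.
-/

set_option linter.all false

open scoped InnerProductSpace ENNReal LinearAlgebra.Projectivization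
open Filter Topology ContinuousLinearMap MeasureTheory TopologicalSpace

namespace Vale.Agent.P092.H252

open Vale.Agent.P092.SD
open Vale.Agent.P092.H87.U
open Vale.Agent.P092.RC (Cm TRN Moore Pic)
open Vale.Agent.P092.H820 (inc3 inc3_closed plane_comm Cpv)
open Vale.Agent.P092.H632.SD (exists_g3 exists_g2 cm_mul com_bw com_bw' com_un0 com_un2 com_un'
  star_calc cov_apply lam_unit)
open Vale.Agent.P092.H68 (EMZ exists_line)
open Vale.Agent.P092.H375.Ultra (Quad NI)

section leg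

variable {k : Type} [NontriviallyNormedField k] [ProperSpace k] [IsUltrametricDist k]
  [MeasurableSpace k] {μ : Measure k}
  {Γ K : Type} [Group Γ] [NormedAddCommGroup K] [InnerProductSpace ℂ K] [CompleteSpace K]
  {π : G3 k →* (K →L[ℂ] K)} {lam : Γ →* (K →L[ℂ] K)} {W : Set (K →L[ℂ] K)} {Ω : K}
  {m : Set Γ → (K →L[ℂ] K)} {q : Γ →* G3 k} {w : kˣ} {E F : PP k → (CP k →⋆ₐ[ℂ] (K →L[ℂ] K))}

/-- the translate of a characteristic function -/
lemma act_chi (g : G3 k) (Z : Clopens (PP k)) : act g⁻¹ (chi Z) = chi (pb g Z) := by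
  ext x
  change chi Z ((g⁻¹)⁻¹ • x) = _
  rw [inv_inv]
  by_cases h : g • x ∈ Z
  · rw [chi_of_mem h, chi_of_mem (show x ∈ pb g Z from h)]
  · rw [chi_of_notMem h, chi_of_notMem (show x ∉ pb g Z from h)]

lemma norm_lam_E (hL : LegS μ w π lam W Ω m q E F) (b : PP k) (Z : Clopens (PP k)) (γ : Γ) (v : K) :
    E b (chi Z) (lam γ v) = lam γ (E b (chi (pb (q γ) Z)) v) := by
  rw [cov_apply hL.e, map_inv q, act_chi]

lemma norm_lam_F (hL : LegS μ w π lam W Ω m q E F) (l : PP k) (A : Clopens (PP k)) (γ : Γ) (v : K) :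
    F l (chi A) (lam γ v) = lam γ (F l (chi (pb (tau k (q γ)) A)) v) := by
  rw [cov_apply hL.f, MonoidHom.comp_apply, map_inv q, map_inv (tau k), act_chi]

/-- the size in terms of a real bound of the logarithm -/
lemma nm_le_ceil {h : G3 k} {J : ℝ} (hJ : Real.log (nm h) ≤ J) :
    nm h ≤ Real.exp (⌈J⌉₊ : ℕ) := by
  rw [← Real.exp_log (nm_pos h)]
  exact Real.exp_le_exp.2 (hJ.trans (Nat.le_ceil J))

lemma ceil_pow {J : ℝ} (hJ : 0 ≤ J) (p : ℕ) :
    (((⌈J⌉₊ : ℕ) : ℝ) + 1) ^ p ≤ 2 ^ p * (1 + J) ^ p := by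
  rw [← mul_pow]
  refine pow_le_pow_left₀ (by positivity) ?_ p
  have := (Nat.ceil_lt_add_one hJ).le
  linarith

/-- **(I1)** for clopen sets -/
theorem inc_ultra (hL : LegS μ w π lam W Ω m q E F) (hZ : EMZ w π lam W Ω q E) {a l : PP k}
    (hal : (a, l) ∈ inc3 (k := k)) {U A : Clopens (PP k)} (hUA : NI (inc3 (k := k)) U A) : cpv (E a) U * cpv (F l) A = 0 := by
  obtain ⟨g, hga, hgl⟩ := exists_g2 hal
  have key := hZ g _ (hL.f.cm l (chi A)) ?_ ?_ (chi U) (U : Set (PP k))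
    U.isClopen.isOpen (tsupport_chi U) 1 ?_
  · rw [hga] at key
    exact key
  · intro N
    rw [← hgl]
    exact com_bw' hL.f g w N 2 _
  · intro s
    rw [← hgl]
    exact com_un' hL.f g s _
  · intro R
    obtain ⟨T₀, hT₀, H⟩ := sum_I1 (K := K) q hL.disc hUA
    obtain ⟨C, hC, H2⟩ := H T₀ le_rfl R
    refine ⟨T₀, hT₀, C * 2, fun J hJ S hS => ?_⟩
    have h1 := H2 (cpv (F l)) (cpv_spec (F l)) ⌈J⌉₊ S
      (fun γ hγ => ⟨(hS γ hγ).1, (hS γ hγ).2.1, nm_le_ceil (hS γ hγ).2.2⟩) Ω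
    rw [hL.pic.nΩ, one_pow, mul_one] at h1
    have h2 : ∑ γ ∈ S, ‖adjoint (F l (chi A)) (lam γ Ω)‖ ^ 2 =
        ∑ γ ∈ S, ‖cpv (F l) (pb (tau k (q γ)) A) Ω‖ ^ 2 := by
      refine Finset.sum_congr rfl fun γ _ => ?_
      rw [star_calc, chi_star, norm_lam_F hL, lam_unit hL.pic]
      rfl
    rw [h2]
    refine h1.trans ?_
    have h3 := ceil_pow hJ 1
    rw [pow_one, pow_one, pow_one] at h3
    rw [pow_one, mul_assoc]
    exact mul_le_mul_of_nonneg_left h3 hC

lemma supp_ultra (hL : LegS μ w π lam W Ω m q E F) (hZ : EMZ w π lam W Ω q E) {a l : PP k}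
    (hal : (a, l) ∈ inc3 (k := k)) (U A : Clopens (PP k)) (hUA : ∀ x ∈ U, ∀ y ∈ A, (x, y) ∉ inc3 (k := k)) :
    cpv (E a) U * cpv (F l) A = 0 := inc_ultra hL hZ hal hUA

lemma com_ultra (hL : LegS μ w π lam W Ω m q E F) (hZ : EMZ w π lam W Ω q E) {a l : PP k}
    (hal : (a, l) ∈ inc3 (k := k)) (U A : Clopens (PP k)) : cpv (E a) U * cpv (F l) A = cpv (F l) A * cpv (E a) U :=
  plane_comm (cpv_spec (E a)) (cpv_spec (F l)) (fun A B h => supp_ultra hL hZ hal A B h) U A

/-- the quadruple `b, a` on `n`, `a` on `l` -/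
theorem quad_ultra (hL : LegS μ w π lam W Ω m q E F) (hZ : EMZ w π lam W Ω q E)
    {a b n l : PP k}
    (han : (a, n) ∈ inc3 (k := k)) (hbn : (b, n) ∈ inc3 (k := k)) (hal : (a, l) ∈ inc3 (k := k)) :
    Quad (inc3 (k := k)) (cpv (E b)) (cpv (E a)) (cpv (F l)) (cpv (F n)) where
  cl := inc3_closed
  hPb := cpv_spec _
  hPc := cpv_spec _
  hLm := cpv_spec _
  hLl := cpv_spec _
  hbl := supp_ultra hL hZ hbn
  hcl := supp_ultra hL hZ han
  hcm := supp_ultra hL hZ hal
  cbl := com_ultra hL hZ hbn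
  ccm := com_ultra hL hZ hal

/-- **(KEY)** for clopen sets -/
theorem key_ultra (hL : LegS μ w π lam W Ω m q E F) (hZ : EMZ w π lam W Ω q E)
    {a b l : PP k} (hal : (a, l) ∈ inc3 (k := k))
    (hbl : (b, l) ∉ inc3 (k := k)) {U V A : Clopens (PP k)} (hUV : Disjoint U V)
    (hUA : NI (inc3 (k := k)) U A) : cpv (E a) U * cpv (E b) V * cpv (F l) A = 0 := by
  obtain ⟨g, hga, hgb, hgl⟩ := exists_g3 hal hbl
  have hab : a ≠ b := fun e => hbl (e ▸ hal)
  obtain ⟨n, han, hbn⟩ := exists_line a b hab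
  have hQ := quad_ultra hL hZ han hbn hal
  have hB : Cm W (E b (chi V) * F l (chi A)) := cm_mul (hL.e.cm b _) (hL.f.cm l _)
  rw [mul_assoc]
  have key := hZ g _ hB ?_ ?_ (chi U) (U : Set (PP k))
    U.isClopen.isOpen (tsupport_chi U) 3 ?_
  · rw [hga] at key
    exact key
  · intro N
    have h1 : Commute (E b (chi V) * F l (chi A)) (π (g * bw w ^ N * g⁻¹)) := by
      refine Commute.mul_left ?_ ?_
      · rw [← hgb]
        exact com_bw hL.e g w N 2 _
      · rw [← hgl]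
        exact com_bw' hL.f g w N 2 _
    exact h1
  · intro s
    have h1 : Commute (E b (chi V) * F l (chi A)) (π (g * un s * g⁻¹)) := by
      refine Commute.mul_left ?_ ?_
      · rw [← hgb]
        exact com_un2 hL.e g s _
      · rw [← hgl]
        exact com_un' hL.f g s _
    exact h1
  · intro R
    obtain ⟨T₀, hT₀, H⟩ := sum_key (K := K) q hL.disc hUV hUA
    obtain ⟨C, hC, H2⟩ := H T₀ le_rfl R
    refine ⟨T₀, hT₀, C * 2 ^ 3, fun J hJ S hS => ?_⟩
    have h1 := H2 _ _ _ _ hQ ⌈J⌉₊ S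
      (fun γ hγ => ⟨(hS γ hγ).1, (hS γ hγ).2.1, nm_le_ceil (hS γ hγ).2.2⟩) Ω
    rw [hL.pic.nΩ, one_pow, mul_one] at h1
    have h2 : ∑ γ ∈ S, ‖adjoint (E b (chi V) * F l (chi A)) (lam γ Ω)‖ ^ 2 =
        ∑ γ ∈ S, ‖cpv (F l) (pb (tau k (q γ)) A) (cpv (E b) (pb (q γ) V) Ω)‖ ^ 2 := by
      refine Finset.sum_congr rfl fun γ _ => ?_
      have h1 : adjoint (E b (chi V) * F l (chi A)) = F l (chi A) * E b (chi V) := by
        rw [← star_eq_adjoint, star_mul, star_eq_adjoint, star_eq_adjoint, star_calc, star_calc,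
          chi_star, chi_star]
      rw [h1]
      change ‖F l (chi A) (E b (chi V) (lam γ Ω))‖ ^ 2 = _
      rw [norm_lam_E hL, norm_lam_F hL, lam_unit hL.pic]
      rfl
    rw [h2]
    refine h1.trans ?_
    rw [mul_assoc]
    exact mul_le_mul_of_nonneg_left (ceil_pow hJ 3) hC

/-- **The quantum plane over a nonarchimedean local field.** -/
theorem qp_ultra (hL : LegS μ w π lam W Ω m q E F) (hZ : EMZ w π lam W Ω q E) : QP E F :=
  qp_of_clopen (fun a l hal U A hUA => inc_ultra hL hZ hal hUA) hL.e.agr hL.f.agr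
    fun a b l hal hbl U V A hUV hUA => key_ultra hL hZ hal hbl hUV hUA

end leg

/-- **[U2] The first half of Team D over every nonarchimedean local field, any characteristic**,
from the counting principle. -/
theorem legComm_of_emz {k : Type} [NontriviallyNormedField k] [ProperSpace k]
    [IsUltrametricDist k] [MeasurableSpace k] {μ : Measure k}
    (hZ : ∀ {Γ K : Type} [Group Γ] [NormedAddCommGroup K] [InnerProductSpace ℂ K]
      [CompleteSpace K] (w : kˣ) (π : G3 k →* (K →L[ℂ] K)) (lam : Γ →* (K →L[ℂ] K))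
      (W : Set (K →L[ℂ] K)) (Ω : K) (m : Set Γ → (K →L[ℂ] K)) (q : Γ →* G3 k)
      (E F : PP k → (CP k →⋆ₐ[ℂ] (K →L[ℂ] K))), LegS μ w π lam W Ω m q E F →
      EMZ w π lam W Ω q E) : LegComm k μ := by
  intro Γ K _ _ _ _ w π lam W Ω m q E F h
  have hq := qp_ultra h (hZ w π lam W Ω m q E F h)
  exact ⟨hq, allStmt_ultra k E F hq⟩

/-- The counting principle of helper790 for a leg (any local field). -/
theorem emz_of_leg {k : Type} [NontriviallyNormedField k] [ProperSpace k] [MeasurableSpace k]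
    [BorelSpace k] {μ : Measure k} [IsFiniteMeasureOnCompacts μ] [μ.IsOpenPosMeasure]
    {Γ K : Type} [Group Γ] [NormedAddCommGroup K] [InnerProductSpace ℂ K] [CompleteSpace K]
    {w : kˣ} {π : G3 k →* (K →L[ℂ] K)} {lam : Γ →* (K →L[ℂ] K)} {W : Set (K →L[ℂ] K)} {Ω : K}
    {m : Set Γ → (K →L[ℂ] K)} {q : Γ →* G3 k} {E F : PP k → (CP k →⋆ₐ[ℂ] (K →L[ℂ] K))}
    (h : LegS μ w π lam W Ω m q E F) : EMZ w π lam W Ω q E := by
  intro g B hB hb hn u A hA hu p hc
  refine H790.CT.E_mul_zero_of_poly (μ := μ) h.hw h.pic h.ms h.uc h.orb h.size h.e hB ?_ hn hA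
    hu p hc
  have h1 := hb 1
  rwa [pow_one] at h1

/-- **The first half of Team D over every nonarchimedean local field, any characteristic.** -/
theorem legComm_nonarch (k : Type) [NontriviallyNormedField k] [ProperSpace k]
    [IsUltrametricDist k] [MeasurableSpace k] [BorelSpace k] (μ : Measure k)
    [IsFiniteMeasureOnCompacts μ] [μ.IsOpenPosMeasure] : LegComm k μ :=
  legComm_of_emz fun w π lam W Ω m q E F h => emz_of_leg h

end Vale.Agent.P092.H252
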